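import Vale.Agent.P048.H448.Sharp

/-!
The critical graphs for `R(C_m, K_n)`.
-/

namespace Vale.Agent.P048.H448

open Finset Vale.Agent.P048

theorem critical_iff (m n : ℕ) (hm : 5 ≤ m ∨ (m = 4 ∧ n = 3)) (hn : 2 ≤ n) (hnm : n ≤ m)
    (G : SimpleGraph (Fin ((m - 1) * (n - 1)))) :
    IsCritical m n G ↔ ¬ (SimpleGraph.cycleGraph m).IsContained G ∧
      ∃ c : Fin ((m - 1) * (n - 1)) → Fin (n - 1),
        (∀ i, G.IsNClique (m - 1) (univ.filter (fun v => c v = i))) ∧
        ∀ u v u' v', c u = c u' → c v = c v' → c u ≠ c v → G.Adj u v → G.Adj u' v' →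
          u = u' ∧ v = v' := by
  constructor
  · rintro ⟨h1, h2⟩
    obtain ⟨c, hc⟩ := (extremal_iff m n hm hn hnm (by rw [Fintype.card_fin]) G h1).1 h2
    exact ⟨h1, c, hc, fun u v u' v' => cross_unique m n (by omega) G h1 c hc u v u' v'⟩
  · rintro ⟨h1, c, hc, -⟩
    exact ⟨h1, (extremal_iff m n hm hn hnm (by rw [Fintype.card_fin]) G h1).2 ⟨c, hc⟩⟩

theorem critical_edges (m n : ℕ) (hm : 5 ≤ m ∨ (m = 4 ∧ n = 3)) (hn : 2 ≤ n) (hnm : n ≤ m) :
    {e : ℕ | ∃ G : SimpleGraph (Fin ((m - 1) * (n - 1))), IsCritical m n G ∧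
      G.edgeSet.ncard = e} =
    Set.Icc ((n - 1) * (m - 1).choose 2) ((n - 1) * (m - 1).choose 2 + (n - 1).choose 2) := by
  classical
  have hcard : ∀ G : SimpleGraph (Fin ((m - 1) * (n - 1))),
      G.edgeSet.ncard = G.edgeFinset.card := by
    intro G
    rw [← SimpleGraph.coe_edgeFinset, Set.ncard_coe_finset]
  ext e
  rw [Set.mem_ofPred_eq, Set.mem_Icc]
  constructor
  · rintro ⟨G, hG, rfl⟩
    obtain ⟨-, c, hc, hu⟩ := (critical_iff m n hm hn hnm G).1 hG
    rw [hcard]
    exact edges_count G (m - 1) (n - 1) c hc hu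
  · rintro ⟨h1, h2⟩
    have h0 : ((univ : Finset (Sym2 (Fin (n - 1)))).filter (fun z => ¬ z.IsDiag)).card
        = (n - 1).choose 2 := by
      have := Sym2.card_subtype_not_diag (α := Fin (n - 1))
      rw [Fintype.card_subtype, Fintype.card_fin] at this
      exact this
    obtain ⟨J, hJ, hJc⟩ := Finset.exists_subset_card_eq
      (s := (univ : Finset (Sym2 (Fin (n - 1)))).filter (fun z => ¬ z.IsDiag))
      (n := e - (n - 1) * (m - 1).choose 2) (by omega)
    have φ : Fin ((m - 1) * (n - 1)) ≃ Fin (n - 1) × Fin (m - 1) :=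
      Fintype.equivOfCardEq (by simp [Nat.mul_comm])
    refine ⟨repGraph φ J, ⟨?_, ?_⟩, ?_⟩
    · rw [← hasC_iff _ m (by omega)]
      have := repGraph_no φ J (by omega) (by omega)
      rwa [show m - 1 + 1 = m by omega] at this
    · refine (extremal_iff m n hm hn hnm (by rw [Fintype.card_fin]) _ ?_).2
        ⟨fun v => (φ v).1, fun i => repGraph_class φ J i⟩
      rw [← hasC_iff _ m (by omega)]
      have := repGraph_no φ J (by omega) (by omega)
      rwa [show m - 1 + 1 = m by omega] at this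
    · rw [hcard]
      have h3 := Finset.card_filter_add_card_filter_not (s := (repGraph φ J).edgeFinset)
        (fun e => (Sym2.map (fun v => (φ v).1) e).IsDiag)
      have h4 := edges_in (repGraph φ J) (m - 1) (n - 1) (fun v => (φ v).1)
        (fun i => repGraph_class φ J i)
      have h5 := repGraph_out φ (by omega) J
        (fun z hz => (Finset.mem_filter.1 (hJ hz)).2)
      omega

end Vale.Agent.P048.H448
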