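import Vale.Agent.P048.Bdl.B1

set_option linter.all false
set_option autoImplicit false

/-!
The clique lemma in the case of equality.
-/

namespace Vale.Agent.P048.H448

open Finset Vale.Agent.P048

variable {V : Type*}

/-- a vertex with three independent neighbours -/
theorem root_eq (G : SimpleGraph V) (W : Finset V) (M a : ℕ) (hM : 8 ≤ M)
    (hno : ¬ HasC G (M + 1)) (hdeg : ∀ v ∈ W, M ≤ dg G W v) (hal : AlLe G W a) (ha1 : 1 ≤ a)
    (hW : M * a ≤ W.card)
    (hcl : ∀ K ⊆ W, Clq G K → K.card ≤ M / 2 + 1) :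
    ∃ r ∈ W, ∃ I ⊆ W, Ind G I ∧ (∀ w ∈ I, G.Adj r w) ∧ 3 ≤ I.card := by
  classical
  by_contra hcon
  push Not at hcon
  have hal2 : ∀ r ∈ W, AlLe G (W.filter (G.Adj r)) 2 := by
    intro r hr I hI hInd
    have := hcon r hr I (hI.trans (Finset.filter_subset _ _)) hInd
      (fun w hw => (Finset.mem_filter.1 (hI hw)).2)
    omega
  have hdeg1 : ∀ r ∈ W, (W.filter (G.Adj r)).card ≤ (M / 2) * 2 := fun r hr =>
    nbhd_light G W M (by omega) hno hcl r hr _ (Finset.filter_subset _ _)
      (fun w hw => (Finset.mem_filter.1 hw).2) 2 (hal2 r hr)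
  have hdeg2 : ∀ r ∈ W, M ≤ (W.filter (G.Adj r)).card := by
    intro r hr
    have := hdeg r hr
    rwa [dg_eq_filter] at this
  obtain ⟨Y, hYW, hYi, hYmax⟩ := exists_max_ind G W
  have hYa : Y.card ≤ a := hal Y hYW hYi
  -- outside vertices have one or two neighbours in `Y`
  have hnb : ∀ w ∈ W \ Y, 1 ≤ (Y.filter (G.Adj w)).card ∧ (Y.filter (G.Adj w)).card ≤ 2 := by
    intro w hw
    rw [Finset.mem_sdiff] at hw
    constructor
    · by_contra h0
      have h0' : Y.filter (G.Adj w) = ∅ := Finset.card_eq_zero.1 (by omega)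
      have h1 : Ind G (insert w Y) := hYi.insert (by
        intro y hy hadj
        have : y ∈ Y.filter (G.Adj w) := Finset.mem_filter.2 ⟨hy, hadj.symm⟩
        rw [h0'] at this
        exact absurd this (Finset.notMem_empty _))
      have h2 := hYmax (insert w Y) (Finset.insert_subset hw.1 hYW) h1
      rw [Finset.card_insert_of_notMem hw.2] at h2
      omega
    · refine hal2 w hw.1 _ ?_ ?_
      · intro y hy
        rw [Finset.mem_filter] at hy ⊢
        exact ⟨hYW hy.1, hy.2⟩
      · intro u hu v hv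
        exact hYi u (Finset.mem_filter.1 hu).1 v (Finset.mem_filter.1 hv).1
  -- double counting
  have hsum : ∑ w ∈ W \ Y, (Y.filter (G.Adj w)).card = ∑ y ∈ Y, ((W \ Y).filter (G.Adj y)).card := by
    have := Finset.sum_card_bipartiteAbove_eq_sum_card_bipartiteBelow (s := W \ Y) (t := Y)
      (fun w y => G.Adj w y)
    rw [Finset.sum_congr rfl (fun w _ => ?_), this]
    · refine Finset.sum_congr rfl fun y _ => ?_
      congr 1
      ext w
      simp [Finset.bipartiteBelow, G.adj_comm]
    · rfl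
  have hsumY : ∀ y ∈ Y, ((W \ Y).filter (G.Adj y)).card = (W.filter (G.Adj y)).card := by
    intro y hy
    congr 1
    ext w
    simp only [Finset.mem_filter, Finset.mem_sdiff]
    constructor
    · rintro ⟨⟨h1, -⟩, h2⟩; exact ⟨h1, h2⟩
    · rintro ⟨h1, h2⟩; exact ⟨⟨h1, fun h => hYi y hy w h h2⟩, h2⟩
  set P := (W \ Y).filter (fun w => (Y.filter (G.Adj w)).card = 1) with hP
  set Q := (W \ Y).filter (fun w => ¬ (Y.filter (G.Adj w)).card = 1) with hQ
  have hPQ : P.card + Q.card = (W \ Y).card := by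
    rw [hP, hQ]
    exact Finset.card_filter_add_card_filter_not _
  have hPQ2 : P.card + 2 * Q.card = ∑ w ∈ W \ Y, (Y.filter (G.Adj w)).card := by
    rw [← Finset.sum_filter_add_sum_filter_not (W \ Y) (fun w => (Y.filter (G.Adj w)).card = 1)]
    congr 1
    · rw [Finset.sum_congr rfl (g := fun _ => 1) (fun w hw => (Finset.mem_filter.1 hw).2)]
      simp [hP]
    · rw [Finset.sum_congr rfl (g := fun _ => 2) (fun w hw => ?_)]
      · simp [hQ, Nat.mul_comm]
      · rw [Finset.mem_filter] at hw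
        have := hnb w hw.1
        omega
  have hub : ∑ w ∈ W \ Y, (Y.filter (G.Adj w)).card ≤ Y.card * M := by
    rw [hsum, Finset.sum_congr rfl hsumY]
    refine (Finset.sum_le_card_nsmul Y _ M fun y hy => ?_)
    have := hdeg1 y (hYW hy)
    omega
  have hcardWY : (W \ Y).card + Y.card = W.card := Finset.card_sdiff_add_card_eq_card hYW
  have hMY : M * Y.card ≤ M * a := Nat.mul_le_mul_left _ hYa
  -- private neighbours
  have hPub : P.card ≤ Y.card * (M / 2) := by
    have h1 : P ⊆ Y.biUnion (fun y => P.filter (fun w => G.Adj w y)) := by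
      intro w hw
      have h2 := (Finset.mem_filter.1 hw).2
      obtain ⟨y, hy⟩ := Finset.card_eq_one.1 h2
      have h3 : y ∈ Y.filter (G.Adj w) := by rw [hy]; simp
      rw [Finset.mem_filter] at h3
      rw [Finset.mem_biUnion]
      exact ⟨y, h3.1, Finset.mem_filter.2 ⟨hw, h3.2⟩⟩
    refine (Finset.card_le_card h1).trans ?_
    refine Finset.card_biUnion_le_card_mul _ _ _ fun y hy => ?_
    have huniq : ∀ w ∈ P.filter (fun w => G.Adj w y), w ∈ W ∧ w ∉ Y ∧ G.Adj w y ∧
        ∀ y' ∈ Y, G.Adj w y' → y' = y := by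
      intro w hw
      rw [Finset.mem_filter] at hw
      have hw1 := Finset.mem_filter.1 hw.1
      obtain ⟨z, hz⟩ := Finset.card_eq_one.1 hw1.2
      refine ⟨(Finset.mem_sdiff.1 hw1.1).1, (Finset.mem_sdiff.1 hw1.1).2, hw.2, ?_⟩
      intro y' hy' hadj
      have h4 : y' ∈ Y.filter (G.Adj w) := Finset.mem_filter.2 ⟨hy', hadj⟩
      have h5 : y ∈ Y.filter (G.Adj w) := Finset.mem_filter.2 ⟨hy, hw.2⟩
      rw [hz, Finset.mem_singleton] at h4 h5
      rw [h4, h5]
    have hclq : Clq G (insert y (P.filter (fun w => G.Adj w y))) := by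
      intro u hu w hw huw
      rcases Finset.mem_insert.1 hu with h5 | h5 <;> rcases Finset.mem_insert.1 hw with h6 | h6
      · exact absurd (h5.trans h6.symm) huw
      · rw [h5]; exact (huniq w h6).2.2.1.symm
      · rw [h6]; exact (huniq u h5).2.2.1
      · by_contra hnadj
        obtain ⟨huW, huY, huy, huu⟩ := huniq u h5
        obtain ⟨hwW, hwY, hwy, hwu⟩ := huniq w h6
        have h7 : Ind G (insert u (insert w (Y.erase y))) := by
          refine Ind.insert (Ind.insert ?_ ?_) ?_
          · intro a ha b hb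
            exact hYi a (Finset.mem_of_mem_erase ha) b (Finset.mem_of_mem_erase hb)
          · intro z hz hadj
            exact (Finset.mem_erase.1 hz).1 (hwu z (Finset.mem_erase.1 hz).2 hadj.symm)
          · intro z hz hadj
            rcases Finset.mem_insert.1 hz with h8 | h8
            · rw [h8] at hadj
              exact hnadj hadj.symm
            · exact (Finset.mem_erase.1 h8).1 (huu z (Finset.mem_erase.1 h8).2 hadj.symm)
        have h8 := hYmax _ (by
          intro z hz
          rcases Finset.mem_insert.1 hz with h9 | h9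
          · rw [h9]; exact huW
          · rcases Finset.mem_insert.1 h9 with h10 | h10
            · rw [h10]; exact hwW
            · exact hYW (Finset.mem_of_mem_erase h10)) h7
        rw [Finset.card_insert_of_notMem, Finset.card_insert_of_notMem,
          Finset.card_erase_of_mem hy] at h8
        · have : 0 < Y.card := Finset.card_pos.2 ⟨y, hy⟩
          omega
        · intro h; exact hwY (Finset.mem_of_mem_erase h)
        · intro h
          rcases Finset.mem_insert.1 h with h9 | h9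
          · exact huw h9
          · exact huY (Finset.mem_of_mem_erase h9)
    have h6 := hcl _ (by
      intro z hz
      rcases Finset.mem_insert.1 hz with h9 | h9
      · rw [h9]; exact hYW hy
      · exact (huniq z h9).1) hclq
    rw [Finset.card_insert_of_notMem] at h6
    · omega
    · intro h
      exact (huniq y h).2.1 hy
  -- numbers
  have hMY' : M * Y.card = Y.card * M := Nat.mul_comm _ _
  have h10 : Y.card * (M / 2) * 2 ≤ Y.card * M := by
    rw [Nat.mul_assoc]
    exact Nat.mul_le_mul_left _ (Nat.div_mul_le_self M 2)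
  have h11 : Y.card * 8 ≤ Y.card * M := Nat.mul_le_mul_left _ hM
  have h12 : 8 ≤ M * a := by nlinarith only [hM, ha1]
  omega

theorem weak_arith {M q h u u' r : ℕ} (hq : q = M / 2 - 1) (hM : 8 ≤ M) (hh : h + 1 ≤ q)
    (hu : 2 * h + 3 ≤ u) (hr : r + h * (h + 1) ≤ 1 + h * u)
    (hstep : M * u ≤ r + u + (M / 2 + 1) * u') (hu' : u' ≤ u) : False := by
  have hqM : M / 2 = q + 1 := by omega
  rw [hqM] at hstep
  have hM2 : 2 * q + 2 ≤ M := by (clear * - hq hqM; omega)
  obtain ⟨d, hd⟩ := Nat.exists_eq_add_of_le hh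
  subst hd
  have h2 : (h + 1 + d + 1 + 1) * u' ≤ (h + 1 + d + 1 + 1) * u := Nat.mul_le_mul_left _ hu'
  have h3 : (2 * (h + 1 + d) + 2) * u ≤ M * u := Nat.mul_le_mul_right _ hM2
  have h5 : d * u + h * (h + 1) ≤ 1 := by nlinarith only [hr, hstep, h2, h3]
  rcases Nat.eq_zero_or_pos d with h6 | h6
  · subst h6
    have h7 : 2 ≤ h := by omega
    nlinarith only [h5, h7]
  · have h7 : 1 * 3 ≤ d * u := Nat.mul_le_mul h6 (by omega)
    omega

/-- one step of the breadth first search -/
theorem step_eq (G : SimpleGraph V) (W : Finset V) (M a e : ℕ) (hM : 8 ≤ M) (ha : a ≤ M)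
    (hno : ¬ HasC G (M + 1)) (hal : AlLe G W a)
    (hcl : ∀ K ⊆ W, Clq G K → K.card ≤ M / 2 + 1) (h : ℕ) (hh : 2 * (h + 2) ≤ M)
    (R U I : Finset V) (hRW : R ⊆ W) (hUW : U ⊆ W) (hRU : Disjoint R U)
    (hU1 : ∀ w ∈ W, w ∉ R → (∃ z ∈ R, G.Adj z w) → w ∈ U)
    (hE : Ear G R U h) (hI : I ⊆ U) (hIi : Ind G I) (hImax : AlLe G U I.card)
    (he : e ≤ (nbc G W I).card) :
    ∃ R' U' I' : Finset V, R' ⊆ W ∧ U' ⊆ W ∧ Disjoint R' U' ∧
      (∀ w ∈ W, w ∉ R' → (∃ z ∈ R', G.Adj z w) → w ∈ U') ∧ Ear G R' U' (h + 1) ∧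
      I' ⊆ U' ∧ Ind G I' ∧ AlLe G U' I'.card ∧ R'.card = R.card + I.card ∧
      e ≤ R.card + I.card + (M / 2 + 1) * I'.card := by
  classical
  set R' := R ∪ I with hR'
  set U' := W.filter (fun w => w ∉ R' ∧ ∃ z ∈ R', G.Adj z w) with hU'
  obtain ⟨I', hI'U, hI'i, hI'max⟩ := exists_max_ind G U'
  have hR'W : R' ⊆ W := Finset.union_subset hRW (hI.trans hUW)
  have hU'W : U' ⊆ W := Finset.filter_subset _ _
  have hdisj : Disjoint R' U' := by
    rw [Finset.disjoint_left]
    intro w hw hw'
    exact (Finset.mem_filter.1 hw').2.1 hw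
  have hRI : Disjoint R I := Finset.disjoint_of_subset_right hI hRU
  have hR'card : R'.card = R.card + I.card := Finset.card_union_of_disjoint hRI
  have hpar : ∀ w ∈ U', ∃ i ∈ I, G.Adj w i := by
    intro w hw
    obtain ⟨hwW, hwR', z, hz, hzw⟩ := Finset.mem_filter.1 hw
    rcases Finset.mem_union.1 hz with hz | hz
    · by_contra hcon
      push Not at hcon
      have hwR : w ∉ R := fun h => hwR' (Finset.mem_union_left _ h)
      have hwI : w ∉ I := fun h => hwR' (Finset.mem_union_right _ h)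
      have hwU : w ∈ U := hU1 w hwW hwR ⟨z, hz, hzw⟩
      have h1 : Ind G (insert w I) := hIi.insert fun i hi hadj => hcon i hi hadj.symm
      have h2 := hImax _ (Finset.insert_subset hwU hI) h1
      rw [Finset.card_insert_of_notMem hwI] at h2
      omega
    · exact ⟨z, hz, hzw.symm⟩
  have hE' : Ear G R' U' (h + 1) := hE.step hRU hI hpar
  refine ⟨R', U', I', hR'W, hU'W, hdisj, ?_, hE', hI'U, hI'i, hI'max, hR'card, ?_⟩
  · intro w hw hwR hz
    exact Finset.mem_filter.2 ⟨hw, hwR, hz⟩
  · -- the neighbourhood of `I`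
    have h1 : nbc G W I ⊆ R' ∪ U' := by
      intro v hv
      rw [mem_nbc] at hv
      by_cases hvR : v ∈ R'
      · exact Finset.mem_union_left _ hvR
      · refine Finset.mem_union_right _ (Finset.mem_filter.2 ⟨hv.1, hvR, ?_⟩)
        rcases hv.2 with h2 | ⟨j, hj, hjv⟩
        · exact absurd (Finset.mem_union_right _ h2) hvR
        · exact ⟨j, Finset.mem_union_right _ hj, hjv⟩
    have h2 := he
    have h3 := (Finset.card_le_card h1).trans (Finset.card_union_le _ _)
    have h4 : U'.card ≤ (M / 2 + 1) * I'.card := by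
      by_contra hcon
      obtain ⟨H, hHU, j, hj, h5, h6, h7⟩ := exists_expd G (M / 2 + 1) U'.card U' I'.card le_rfl
        hI'max (by omega)
      exact ear_light G R' U' (h + 1) M (by omega) hE' hdisj (by omega) hno H hHU
        (Finset.card_pos.1 (by omega)) h7 (fun K hK => hcl K (hK.trans (hHU.trans hU'W)))
        (fun J hJ hJi => (hal J (hJ.trans (hHU.trans hU'W)) hJi).trans ha)
    omega
theorem clique_eq (G : SimpleGraph V) (W : Finset V) (M a : ℕ) (hM : 8 ≤ M) (ha : a ≤ M)
    (ha1 : 1 ≤ a) (hno : ¬ HasC G (M + 1)) (hdeg : ∀ v ∈ W, M ≤ dg G W v)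
    (hexp : ∀ J ⊆ W, Ind G J → J.Nonempty → J.card < a → M * J.card + 1 ≤ (nbc G W J).card)
    (hexp' : ∀ J ⊆ W, Ind G J → J.Nonempty → M * J.card ≤ (nbc G W J).card)
    (hal : AlLe G W a) (hW : M * a ≤ W.card) : ∃ K ⊆ W, Clq G K ∧ M / 2 + 2 ≤ K.card := by
  classical
  by_contra hcon
  push Not at hcon
  have hcl : ∀ K ⊆ W, Clq G K → K.card ≤ M / 2 + 1 := by
    intro K hK hKc
    have := hcon K hK hKc
    omega
  obtain ⟨r, hr, I0, hI0W, hI0i, hI0r, hI0c⟩ := root_eq G W M a hM hno hdeg hal ha1 hW hcl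
  have main : ∀ h : ℕ, h ≤ M / 2 - 1 → ∃ R U I : Finset V, R ⊆ W ∧ U ⊆ W ∧ Disjoint R U ∧
      (∀ w ∈ W, w ∉ R → (∃ z ∈ R, G.Adj z w) → w ∈ U) ∧ Ear G R U h ∧
      I ⊆ U ∧ Ind G I ∧ AlLe G U I.card ∧ 2 * h + 3 ≤ I.card ∧
      R.card + h * (h + 1) ≤ 1 + h * I.card ∧
      (h = M / 2 - 1 → M % 2 = 1 → 2 * h + 4 ≤ I.card) := by
    intro h
    induction h with
    | zero =>
      intro _
      obtain ⟨I, hIU, hIi, hImax⟩ := exists_max_ind G (W.filter (G.Adj r))
      refine ⟨{r}, W.filter (G.Adj r), I, by simpa using hr, Finset.filter_subset _ _, ?_, ?_,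
        Ear.zero G r _ (fun w hw => (Finset.mem_filter.1 hw).2), hIU, hIi, hImax, ?_, by simp,
        by omega⟩
      · rw [Finset.disjoint_left]
        intro w hw hw'
        rw [Finset.mem_singleton.1 hw] at hw'
        exact G.loopless.irrefl _ (Finset.mem_filter.1 hw').2
      · rintro w hw - ⟨z, hz, hzw⟩
        rw [Finset.mem_singleton.1 hz] at hzw
        exact Finset.mem_filter.2 ⟨hw, hzw⟩
      · have := hImax I0 (fun w hw => Finset.mem_filter.2 ⟨hI0W hw, hI0r w hw⟩) hI0i
        omega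
    | succ h ih =>
      intro hh
      obtain ⟨R, U, I, hRW, hUW, hRU, hU1, hE, hI, hIi, hImax, hu, hrr, -⟩ := ih (by omega)
      have hIa := hal I (hI.trans hUW) hIi
      have hIne : I.Nonempty := Finset.card_pos.1 (by omega)
      have hlt : I.card < a := by
        rcases Nat.lt_or_ge I.card a with h7 | h7
        · exact h7
        exfalso
        obtain ⟨R', U', I', hR'W, hU'W, hRU', hU1', hE', hI', hIi', hImax', hcard, hstep⟩ :=
          step_eq G W M a _ hM ha hno hal hcl h (by (clear * - hh; omega)) R U I hRW hUW hRU hU1 hE hI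
            hIi hImax (hexp' I (hI.trans hUW) hIi hIne)
        have h8 := hal I' (hI'.trans hU'W) hIi'
        exact weak_arith rfl hM hh hu hrr hstep (by omega)
      obtain ⟨R', U', I', hR'W, hU'W, hRU', hU1', hE', hI', hIi', hImax', hcard, hstep⟩ :=
        step_eq G W M a _ hM ha hno hal hcl h (by (clear * - hh; omega)) R U I hRW hUW hRU hU1 hE hI hIi
          hImax (hexp I (hI.trans hUW) hIi hIne hlt)
      obtain ⟨h1, h2, h3⟩ := bfs_arith (q := M / 2 - 1) rfl hM hh hu hrr hstep
      refine ⟨R', U', I', hR'W, hU'W, hRU', hU1', hE', hI', hIi', hImax', by (clear * - hu hcard h1; omega), ?_, ?_⟩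
      · rw [hcard]; exact h3
      · intro h4 h5
        have := h2 h4 h5
        (clear * - hu hcard this; omega)
  obtain ⟨R, U, I, hRW, hUW, hRU, hU1, hE, hI, hIi, hImax, hu, hrr, hlast⟩ :=
    main (M / 2 - 1) le_rfl
  have h1 := hal I (hI.trans hUW) hIi
  rcases Nat.mod_two_eq_zero_or_one M with h2 | h2
  · omega
  · have := hlast rfl h2
    omega


end Vale.Agent.P048.H448
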