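import Mathlib.Combinatorics.SimpleGraph.Circulant
import Mathlib.Combinatorics.SimpleGraph.Clique
import Mathlib.Combinatorics.SimpleGraph.Copy

/-!
Definitions for the critical graphs of `R(C_m, K_n)` and for the star-critical Ramsey number.
-/

namespace Vale.Agent.P048.H448

open Finset

/-- `G` is a critical graph for `R(C_m, K_n)`: a graph on `(m - 1) (n - 1)` vertices which contains
neither a copy of `C_m` nor an independent set of `n` vertices. -/
def IsCritical (m n : ℕ) (G : SimpleGraph (Fin ((m - 1) * (n - 1)))) : Prop :=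
  ¬ (SimpleGraph.cycleGraph m).IsContained G ∧
    ∀ s : Finset (Fin ((m - 1) * (n - 1))), ¬ G.IsNIndepSet n s

/-- `G` contains no copy of `C_m`, its vertex set is partitioned into `n - 1` cliques with `m - 1`
vertices (the classes of `c`), and any two of these cliques are joined by at most one edge. -/
def IsStandard (m n : ℕ) (G : SimpleGraph (Fin ((m - 1) * (n - 1)))) : Prop :=
  ¬ (SimpleGraph.cycleGraph m).IsContained G ∧
    ∃ c : Fin ((m - 1) * (n - 1)) → Fin (n - 1),
      (∀ i, G.IsNClique (m - 1) (univ.filter (fun v => c v = i))) ∧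
      ∀ u v u' v', c u = c u' → c v = c v' → c u ≠ c v → G.Adj u v → G.Adj u' v' →
        u = u' ∧ v = v'

/-- `H → (C_m, K_n)`: in every red-blue colouring of the edges of `H` (red edges: `R`, blue edges:
`H \ R`) there is a red cycle with `m` vertices or a blue complete graph with `n` vertices. -/
def Arrows {V : Type*} (H : SimpleGraph V) (m n : ℕ) : Prop :=
  ∀ R : SimpleGraph V, R ≤ H →
    (SimpleGraph.cycleGraph m).IsContained R ∨ ∃ T : Finset V, (H \ R).IsNClique n T

/-- `K_N ⊔ K_{1,k}`: the complete graph on `Fin N` together with one more vertex `none`, which is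
joined to the vertices `i < k` of `Fin N`. -/
def starComplete (N k : ℕ) : SimpleGraph (Option (Fin N)) where
  Adj x y := x ≠ y ∧ (x = none → ∃ i : Fin N, y = some i ∧ i.val < k) ∧
    (y = none → ∃ i : Fin N, x = some i ∧ i.val < k)
  symm := ⟨fun _ _ h => ⟨h.1.symm, h.2.2, h.2.1⟩⟩
  loopless := ⟨fun _ h => h.1 rfl⟩

end Vale.Agent.P048.H448
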