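import Vale.Agent.P048.H448.Lower

/-!
Number of edges of the extremal graphs.
-/

namespace Vale.Agent.P048.H448

open Finset Vale.Agent.P048

/-- edges inside the classes -/
theorem edges_in {V : Type*} [Fintype V] [DecidableEq V] (G : SimpleGraph V) [DecidableRel G.Adj]
    (M k : ℕ) (c : V → Fin k) (hc : ∀ i, G.IsNClique M (univ.filter (fun v => c v = i))) :
    (G.edgeFinset.filter (fun e => (Sym2.map c e).IsDiag)).card = k * M.choose 2 := by
  have h1 : G.edgeFinset.filter (fun e => (Sym2.map c e).IsDiag) =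
      (univ : Finset (Fin k)).biUnion
        (fun i => ((univ.filter (fun v => c v = i)).offDiag.image Sym2.mk.uncurry)) := by
    ext e
    induction e with
    | _ u v =>
      rw [Finset.mem_filter, SimpleGraph.mem_edgeFinset, SimpleGraph.mem_edgeSet, Sym2.map_mk,
        Sym2.mk_isDiag_iff, Finset.mem_biUnion]
      constructor
      · rintro ⟨h1, h2⟩
        refine ⟨c u, Finset.mem_univ _, ?_⟩
        rw [Finset.mem_image]
        refine ⟨(u, v), ?_, rfl⟩
        rw [Finset.mem_offDiag]
        exact ⟨by simp, by simp [h2], h1.ne⟩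
      · rintro ⟨i, -, h1⟩
        rw [Finset.mem_image] at h1
        obtain ⟨⟨a, b⟩, h2, h3⟩ := h1
        rw [Finset.mem_offDiag] at h2
        obtain ⟨ha, hb, hab⟩ := h2
        have hadj := (hc i).isClique (Finset.mem_coe.2 ha) (Finset.mem_coe.2 hb) hab
        rw [Finset.mem_filter] at ha hb
        have h4 : s(a, b) = s(u, v) := h3
        rw [Sym2.eq_iff] at h4
        rcases h4 with ⟨rfl, rfl⟩ | ⟨rfl, rfl⟩
        · exact ⟨hadj, ha.2.trans hb.2.symm⟩
        · exact ⟨hadj.symm, hb.2.trans ha.2.symm⟩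
  rw [h1, Finset.card_biUnion]
  · rw [Finset.sum_congr rfl (fun i _ => by
      rw [Sym2.card_image_offDiag, (hc i).card_eq] :
      ∀ i ∈ (univ : Finset (Fin k)), _ = M.choose 2)]
    simp
  · intro i _ j _ hij
    rw [Function.onFun_apply, Finset.disjoint_left]
    intro e he he'
    rw [Finset.mem_image] at he he'
    obtain ⟨⟨a, b⟩, h2, h3⟩ := he
    obtain ⟨⟨a', b'⟩, h2', h3'⟩ := he'
    rw [Finset.mem_offDiag] at h2 h2'
    have h4 : s(a, b) = s(a', b') := h3.trans h3'.symm
    have hai := (Finset.mem_filter.1 h2.1).2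
    have haj := (Finset.mem_filter.1 h2'.1).2
    have hbj := (Finset.mem_filter.1 h2'.2.1).2
    rw [Sym2.eq_iff] at h4
    rcases h4 with ⟨h5, -⟩ | ⟨h5, -⟩
    · exact hij (hai.symm.trans ((congrArg c h5).trans haj))
    · exact hij (hai.symm.trans ((congrArg c h5).trans hbj))

/-- edges between the classes -/
theorem edges_out {V : Type*} [Fintype V] [DecidableEq V] (G : SimpleGraph V) [DecidableRel G.Adj]
    (k : ℕ) (c : V → Fin k)
    (hu : ∀ u v u' v', c u = c u' → c v = c v' → c u ≠ c v → G.Adj u v → G.Adj u' v' →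
      u = u' ∧ v = v') :
    (G.edgeFinset.filter (fun e => ¬ (Sym2.map c e).IsDiag)).card ≤ k.choose 2 := by
  have h0 : ((univ : Finset (Sym2 (Fin k))).filter (fun z => ¬ z.IsDiag)).card = k.choose 2 := by
    have := Sym2.card_subtype_not_diag (α := Fin k)
    rw [Fintype.card_subtype, Fintype.card_fin] at this
    exact this
  rw [← h0]
  apply Finset.card_le_card_of_injOn (Sym2.map c)
  · intro e he
    rw [Finset.mem_coe, Finset.mem_filter] at he ⊢
    exact ⟨Finset.mem_univ _, he.2⟩
  · intro e he e' he' hee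
    rw [Finset.mem_coe, Finset.mem_filter] at he he'
    induction e with
    | _ u v =>
      induction e' with
      | _ u' v' =>
        rw [SimpleGraph.mem_edgeFinset, SimpleGraph.mem_edgeSet, Sym2.map_mk,
          Sym2.mk_isDiag_iff] at he he'
        rw [Sym2.map_mk, Sym2.map_mk, Sym2.eq_iff] at hee
        rcases hee with ⟨h1, h2⟩ | ⟨h1, h2⟩
        · obtain ⟨rfl, rfl⟩ := hu u v u' v' h1 h2 he.2 he.1 he'.1
          rfl
        · obtain ⟨rfl, rfl⟩ := hu u v v' u' h1 h2 he.2 he.1 he'.1.symm
          exact Sym2.eq_swap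

theorem edges_count {V : Type*} [Fintype V] [DecidableEq V] (G : SimpleGraph V)
    [DecidableRel G.Adj]
    (M k : ℕ) (c : V → Fin k) (hc : ∀ i, G.IsNClique M (univ.filter (fun v => c v = i)))
    (hu : ∀ u v u' v', c u = c u' → c v = c v' → c u ≠ c v → G.Adj u v → G.Adj u' v' →
      u = u' ∧ v = v') :
    k * M.choose 2 ≤ G.edgeFinset.card ∧ G.edgeFinset.card ≤ k * M.choose 2 + k.choose 2 := by
  have h1 := Finset.card_filter_add_card_filter_not (s := G.edgeFinset)
    (fun e => (Sym2.map c e).IsDiag)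
  have h2 := edges_in G M k c hc
  have h3 := edges_out G k c hu
  omega

end Vale.Agent.P048.H448
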