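import Vale.Agent.P048.H448.Assemble

/-!
The exceptional pairs `(3, 3)` and `(4, 4)`.
-/

namespace Vale.Agent.P048.H448

open Finset Vale.Agent.P048

/-- the red graph on `10` vertices, as bit masks -/
def e4 (a b : ℕ) : Bool :=
  ([770, 593, 152, 276, 14, 448, 162, 100, 41, 3].getD a 0).testBit b

/-- the pentagon, as bit masks -/
def e3 (a b : ℕ) : Bool := ([18, 5, 10, 20, 9].getD a 0).testBit b

theorem e4_check : ∀ a b c d : Fin 10, a ≠ c → b ≠ d →
    ¬ (e4 a b = true ∧ e4 b c = true ∧ e4 c d = true ∧ e4 d a = true) := by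
  decide +kernel

theorem e4_symm : ∀ a b : Fin 10, e4 a b = e4 b a := by decide +kernel

theorem e4_irrefl : ∀ a : Fin 10, e4 a a = false := by decide +kernel

/-- the condition of `e4_blue` -/
def q4 (a b c d : Fin 10) : Bool :=
  a == b || a == c || a == d || b == c || b == d || c == d ||
    e4 a b || e4 a c || e4 a d || e4 b c || e4 b d || e4 c d ||
    ((a == 9 || b == 9 || c == 9 || d == 9) && (a == 8 || b == 8 || c == 8 || d == 8))

theorem q4_all : ∀ a b c d : Fin 10, q4 a b c d = true := by decide +kernel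

theorem e4_blue (a b c d : Fin 10) (hab : a ≠ b) (hac : a ≠ c) (had : a ≠ d) (hbc : b ≠ c)
    (hbd : b ≠ d) (hcd : c ≠ d)
    (h1 : e4 a b = false) (h2 : e4 a c = false) (h3 : e4 a d = false) (h4 : e4 b c = false)
    (h5 : e4 b d = false) (h6 : e4 c d = false) :
    (a = 9 ∨ b = 9 ∨ c = 9 ∨ d = 9) ∧ (a = 8 ∨ b = 8 ∨ c = 8 ∨ d = 8) := by
  have h := q4_all a b c d
  simp only [q4, h1, h2, h3, h4, h5, h6, Bool.or_false, Bool.or_eq_true, Bool.and_eq_true,
    beq_iff_eq, hab, hac, had, hbc, hbd, hcd, false_or, or_assoc] at h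
  exact h

theorem e4_tri : ∀ p q : Fin 10, p ≠ 9 → q ≠ 9 → ¬ (e4 0 p = true ∧ e4 0 q = true ∧
    e4 p q = true) := by
  decide +kernel

theorem e3_tri : ∀ a b c : Fin 5, ¬ (e3 a b = true ∧ e3 b c = true ∧ e3 c a = true) := by
  decide +kernel

theorem e3_symm : ∀ a b : Fin 5, e3 a b = e3 b a := by decide +kernel

theorem e3_irrefl : ∀ a : Fin 5, e3 a a = false := by decide +kernel

theorem e3_blue : ∀ a b c : Fin 5, a ≠ b → a ≠ c → b ≠ c →
    ¬ (e3 a b = false ∧ e3 a c = false ∧ e3 b c = false) := by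
  decide +kernel

/-- a graph on `V` from a Boolean matrix and a code -/
def codeGraph {V : Type*} {r : ℕ} (f : V → Fin r) (e : ℕ → ℕ → Bool)
    (hs : ∀ a b : Fin r, e a b = e b a) (hi : ∀ a : Fin r, e a a = false) : SimpleGraph V where
  Adj x y := e (f x) (f y) = true
  symm := ⟨fun x y h => by rw [hs]; exact h⟩
  loopless := ⟨fun x h => by rw [hi] at h; exact absurd h (by decide)⟩

theorem card_four {V : Type*} {T : Finset V} (h : T.card = 4) :
    ∃ a b c d, a ≠ b ∧ a ≠ c ∧ a ≠ d ∧ b ≠ c ∧ b ≠ d ∧ c ≠ d ∧ a ∈ T ∧ b ∈ T ∧ c ∈ T ∧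
      d ∈ T := by
  classical
  obtain ⟨a, ha⟩ : T.Nonempty := by
    rw [← Finset.card_pos]
    omega
  have h1 : (T.erase a).card = 3 := by
    rw [Finset.card_erase_of_mem ha]
    omega
  obtain ⟨b, c, d, hbc, hbd, hcd, he⟩ := Finset.card_eq_three.1 h1
  have hb : b ∈ T.erase a := by rw [he]; simp
  have hc : c ∈ T.erase a := by rw [he]; simp
  have hd : d ∈ T.erase a := by rw [he]; simp
  rw [Finset.mem_erase] at hb hc hd
  exact ⟨a, b, c, d, hb.1.symm, hc.1.symm, hd.1.symm, hbc, hbd, hcd, ha, hb.2, hc.2, hd.2⟩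

theorem code_no4 {V : Type*} (f : V → Fin 10) (hf : Function.Injective f) :
    ¬ HasC (codeGraph f e4 e4_symm e4_irrefl) 4 := by
  rintro ⟨l, hlen, hl⟩
  obtain ⟨x, hx, -⟩ := IsC.exists_isF _ l hl (by omega)
  rw [hlen] at hx
  have h4 : x 4 = x 0 := hx.2.1 0
  have h3 := hx.1 3
  rw [show 3 + 1 = 4 from rfl, h4] at h3
  refine e4_check (f (x 0)) (f (x 1)) (f (x 2)) (f (x 3)) ?_ ?_ ⟨hx.1 0, hx.1 1, hx.1 2, h3⟩
  · intro h
    exact absurd (hx.2.2 0 2 (by omega) (by omega) (hf h)) (by omega)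
  · intro h
    exact absurd (hx.2.2 1 3 (by omega) (by omega) (hf h)) (by omega)

theorem code_no3 {V : Type*} (f : V → Fin 5) :
    ¬ HasC (codeGraph f e3 e3_symm e3_irrefl) 3 := by
  rintro ⟨l, hlen, hl⟩
  obtain ⟨x, hx, -⟩ := IsC.exists_isF _ l hl (by omega)
  rw [hlen] at hx
  have h4 : x 3 = x 0 := hx.2.1 0
  have h3 := hx.1 2
  rw [show 2 + 1 = 3 from rfl, h4] at h3
  exact e3_tri (f (x 0)) (f (x 1)) (f (x 2)) ⟨hx.1 0, hx.1 1, h3⟩

theorem bool_false_of {b : Bool} (h : ¬ b = true) : b = false := by simpa using h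

/-- the star-critical formula fails at `(4, 4)` -/
theorem star_four : ¬ Arrows (starComplete ((4 - 1) * (4 - 1)) 8) 4 4 := by
  classical
  intro h
  let f : Option (Fin ((4 - 1) * (4 - 1))) → Fin 10 := fun v =>
    v.elim 9 (fun i => ⟨i.val, by have := i.isLt; omega⟩)
  have hf : Function.Injective f := by
    intro u v huv
    cases u <;> cases v
    · rfl
    · next i =>
      have := congrArg Fin.val huv
      have hi := i.isLt
      simp only [f, Option.elim_none, Option.elim_some] at this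
      omega
    · next i =>
      have := congrArg Fin.val huv
      have hi := i.isLt
      simp only [f, Option.elim_none, Option.elim_some] at this
      omega
    · next i j =>
      have := congrArg Fin.val huv
      simp only [f, Option.elim_some] at this
      exact congrArg some (Fin.ext this)
  rcases h (codeGraph f e4 e4_symm e4_irrefl ⊓ starComplete ((4 - 1) * (4 - 1)) 8)
    inf_le_right with h1 | ⟨T, hT⟩
  · apply code_no4 f hf
    rw [hasC_iff _ 4 (by omega)]
    exact h1.mono_right inf_le_left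
  · rw [SimpleGraph.isNClique_iff] at hT
    obtain ⟨hTc, hTn⟩ := hT
    obtain ⟨a, b, c, d, hab, hac, had, hbc, hbd, hcd, ha, hb, hc, hd⟩ := card_four hTn
    have hadj : ∀ x ∈ T, ∀ y ∈ T, x ≠ y →
        (starComplete ((4 - 1) * (4 - 1)) 8).Adj x y ∧ e4 (f x) (f y) = false := by
      intro x hx y hy hxy
      have h2 := hTc hx hy hxy
      rw [SimpleGraph.sdiff_adj, SimpleGraph.inf_adj] at h2
      exact ⟨h2.1, bool_false_of fun h3 => h2.2 ⟨h3, h2.1⟩⟩
    obtain ⟨h9, h8⟩ := e4_blue (f a) (f b) (f c) (f d) (fun h => hab (hf h)) (fun h => hac (hf h))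
      (fun h => had (hf h)) (fun h => hbc (hf h)) (fun h => hbd (hf h)) (fun h => hcd (hf h))
      (hadj a ha b hb hab).2 (hadj a ha c hc hac).2 (hadj a ha d hd had).2
      (hadj b hb c hc hbc).2 (hadj b hb d hd hbd).2 (hadj c hc d hd hcd).2
    have hex : ∀ z : Fin 10, (f a = z ∨ f b = z ∨ f c = z ∨ f d = z) → ∃ v ∈ T, f v = z := by
      rintro z (h | h | h | h)
      exacts [⟨a, ha, h⟩, ⟨b, hb, h⟩, ⟨c, hc, h⟩, ⟨d, hd, h⟩]
    obtain ⟨u, hu, hu9⟩ := hex 9 h9
    obtain ⟨w, hw, hw8⟩ := hex 8 h8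
    have hun : u = none := by
      cases u
      · rfl
      · next i =>
        have := congrArg Fin.val hu9
        have hi := i.isLt
        simp only [f, Option.elim_some] at this
        have h9' : ((9 : Fin 10) : ℕ) = 9 := rfl
        omega
    have huw : u ≠ w := by
      rintro rfl
      rw [hu9] at hw8
      exact absurd hw8 (by decide)
    obtain ⟨i, hi, hi8⟩ := (hadj u hu w hw huw).1.2.1 hun
    rw [hi] at hw8
    have := congrArg Fin.val hw8
    simp only [f, Option.elim_some] at this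
    have h8' : ((8 : Fin 10) : ℕ) = 8 := rfl
    omega

/-- the star-critical formula fails at `(3, 3)` -/
theorem star_three : ¬ Arrows (starComplete ((3 - 1) * (3 - 1)) 4) 3 3 := by
  classical
  intro h
  let f : Option (Fin ((3 - 1) * (3 - 1))) → Fin 5 := fun v =>
    v.elim 4 (fun i => ⟨i.val, by have := i.isLt; omega⟩)
  have hf : Function.Injective f := by
    intro u v huv
    cases u <;> cases v
    · rfl
    · next i =>
      have := congrArg Fin.val huv
      have hi := i.isLt
      simp only [f, Option.elim_none, Option.elim_some] at this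
      omega
    · next i =>
      have := congrArg Fin.val huv
      have hi := i.isLt
      simp only [f, Option.elim_none, Option.elim_some] at this
      omega
    · next i j =>
      have := congrArg Fin.val huv
      simp only [f, Option.elim_some] at this
      exact congrArg some (Fin.ext this)
  rcases h (codeGraph f e3 e3_symm e3_irrefl ⊓ starComplete ((3 - 1) * (3 - 1)) 4)
    inf_le_right with h1 | ⟨T, hT⟩
  · apply code_no3 f
    rw [hasC_iff _ 3 (by omega)]
    exact h1.mono_right inf_le_left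
  · rw [SimpleGraph.isNClique_iff] at hT
    obtain ⟨hTc, hTn⟩ := hT
    obtain ⟨a, b, c, hab, hac, hbc, rfl⟩ := Finset.card_eq_three.1 hTn
    have hadj : ∀ x ∈ ({a, b, c} : Finset _), ∀ y ∈ ({a, b, c} : Finset _), x ≠ y →
        e3 (f x) (f y) = false := by
      intro x hx y hy hxy
      have h2 := hTc (Finset.mem_coe.2 hx) (Finset.mem_coe.2 hy) hxy
      rw [SimpleGraph.sdiff_adj, SimpleGraph.inf_adj] at h2
      exact bool_false_of fun h3 => h2.2 ⟨h3, h2.1⟩
    exact e3_blue (f a) (f b) (f c) (fun h => hab (hf h)) (fun h => hac (hf h))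
      (fun h => hbc (hf h)) ⟨hadj a (by simp) b (by simp) hab, hadj a (by simp) c (by simp) hac,
        hadj b (by simp) c (by simp) hbc⟩

/-- the star-critical number, for all `m ≥ n ≥ 3` -/
theorem star_critical_iff (m n : ℕ) (hn : 3 ≤ n) (hnm : n ≤ m) :
    IsLeast {k : ℕ | Arrows (starComplete ((m - 1) * (n - 1)) k) m n} ((m - 1) * (n - 2) + 2) ↔
      ¬ (m = 3 ∧ n = 3) ∧ ¬ (m = 4 ∧ n = 4) := by
  constructor
  · intro h
    refine ⟨?_, ?_⟩
    · rintro ⟨rfl, rfl⟩
      exact star_three h.1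
    · rintro ⟨rfl, rfl⟩
      exact star_four h.1
  · rintro ⟨h3, h4⟩
    exact star_critical m n (by omega) (by omega) hnm

end Vale.Agent.P048.H448
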