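import Vale.Agent.P048.H448.Exc

/-!
The structure theorem fails for the exceptional pairs `(3, 3)` and `(4, 4)`.
-/

namespace Vale.Agent.P048.H448

open Finset Vale.Agent.P048

/-- the square, as bit masks -/
def e2 (a b : ℕ) : Bool := ([10, 5, 10, 5].getD a 0).testBit b

theorem e2_tri : ∀ a b c : Fin 4, ¬ (e2 a b = true ∧ e2 b c = true ∧ e2 c a = true) := by
  decide +kernel

theorem e2_symm : ∀ a b : Fin 4, e2 a b = e2 b a := by decide +kernel

theorem e2_irrefl : ∀ a : Fin 4, e2 a a = false := by decide +kernel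

theorem e2_blue : ∀ a b c : Fin 4, a ≠ b → a ≠ c → b ≠ c →
    ¬ (e2 a b = false ∧ e2 a c = false ∧ e2 b c = false) := by
  decide +kernel

/-- the code of the nine vertices -/
def f9 : Fin ((4 - 1) * (4 - 1)) → Fin 10 := fun i => ⟨i.val, by have := i.isLt; omega⟩

/-- the code of the four vertices -/
def f4 : Fin ((3 - 1) * (3 - 1)) → Fin 4 := fun i => ⟨i.val, by have := i.isLt; omega⟩

instance dec9 : DecidableRel (codeGraph f9 e4 e4_symm e4_irrefl).Adj := fun x y => by
  unfold codeGraph; infer_instance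

instance dec4 : DecidableRel (codeGraph f4 e2 e2_symm e2_irrefl).Adj := fun x y => by
  unfold codeGraph; infer_instance

theorem card_thirteen : (codeGraph f9 e4 e4_symm e4_irrefl).edgeFinset.card = 13 := by
  decide +kernel

theorem card_square : (codeGraph f4 e2 e2_symm e2_irrefl).edgeFinset.card = 4 := by
  decide +kernel

/-- the exceptional critical graph for `(4, 4)` -/
theorem critical_four : ∃ G : SimpleGraph (Fin ((4 - 1) * (4 - 1))),
    IsCritical 4 4 G ∧ ¬ IsStandard 4 4 G ∧ G.edgeSet.ncard = 13 := by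
  classical
  set f : Fin ((4 - 1) * (4 - 1)) → Fin 10 := f9 with hfdef
  have hf : Function.Injective f := by
    intro i j hij
    have := congrArg Fin.val hij
    exact Fin.ext this
  have hf9 : ∀ i, f i ≠ 9 := by
    intro i h
    have := congrArg Fin.val h
    have hi := i.isLt
    have h9' : ((9 : Fin 10) : ℕ) = 9 := rfl
    simp only [f, f9] at this
    omega
  have hno : ¬ (SimpleGraph.cycleGraph 4).IsContained (codeGraph f e4 e4_symm e4_irrefl) := by
    rw [← hasC_iff _ 4 (by omega)]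
    exact code_no4 f hf
  refine ⟨codeGraph f e4 e4_symm e4_irrefl, ⟨hno, ?_⟩, ?_, by
    rw [hfdef, ← SimpleGraph.coe_edgeFinset, Set.ncard_coe_finset]
    exact card_thirteen⟩
  · intro s hs
    obtain ⟨a, b, c, d, hab, hac, had, hbc, hbd, hcd, ha, hb, hc, hd⟩ := card_four hs.card_eq
    have hadj : ∀ x ∈ s, ∀ y ∈ s, x ≠ y → e4 (f x) (f y) = false := by
      intro x hx y hy hxy
      exact bool_false_of fun h3 => hs.isIndepSet hx hy hxy h3
    obtain ⟨h9, -⟩ := e4_blue (f a) (f b) (f c) (f d) (fun h => hab (hf h)) (fun h => hac (hf h))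
      (fun h => had (hf h)) (fun h => hbc (hf h)) (fun h => hbd (hf h)) (fun h => hcd (hf h))
      (hadj a ha b hb hab) (hadj a ha c hc hac) (hadj a ha d hd had)
      (hadj b hb c hc hbc) (hadj b hb d hd hbd) (hadj c hc d hd hcd)
    rcases h9 with h | h | h | h
    exacts [hf9 _ h, hf9 _ h, hf9 _ h, hf9 _ h]
  · rintro ⟨-, c, hc, -⟩
    let z : Fin ((4 - 1) * (4 - 1)) := ⟨0, by omega⟩
    have h1 := (clq_iff _ _ _).1 (hc (c z))
    have hz : z ∈ univ.filter (fun v => c v = c z) := by simp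
    have h2 : ((univ.filter (fun v => c v = c z)).erase z).card = 2 := by
      rw [Finset.card_erase_of_mem hz, h1.2]
    obtain ⟨p, q, hpq, he⟩ := Finset.card_eq_two.1 h2
    have hp : p ∈ (univ.filter (fun v => c v = c z)).erase z := by rw [he]; simp
    have hq : q ∈ (univ.filter (fun v => c v = c z)).erase z := by rw [he]; simp
    rw [Finset.mem_erase] at hp hq
    have hzp := h1.1 z hz p hp.2 hp.1.symm
    have hzq := h1.1 z hz q hq.2 hq.1.symm
    have hpq' := h1.1 p hp.2 q hq.2 hpq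
    exact e4_tri (f p) (f q) (hf9 p) (hf9 q) ⟨hzp, hzq, hpq'⟩

/-- the exceptional critical graph for `(3, 3)` -/
theorem critical_three : ∃ G : SimpleGraph (Fin ((3 - 1) * (3 - 1))),
    IsCritical 3 3 G ∧ ¬ IsStandard 3 3 G ∧ G.edgeSet.ncard = 4 := by
  classical
  set f : Fin ((3 - 1) * (3 - 1)) → Fin 4 := f4 with hfdef
  have hf : Function.Injective f := by
    intro i j hij
    have := congrArg Fin.val hij
    exact Fin.ext this
  have hno : ¬ (SimpleGraph.cycleGraph 3).IsContained (codeGraph f e2 e2_symm e2_irrefl) := by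
    rw [← hasC_iff _ 3 (by omega)]
    rintro ⟨l, hlen, hl⟩
    obtain ⟨x, hx, -⟩ := IsC.exists_isF _ l hl (by omega)
    rw [hlen] at hx
    have h4 : x 3 = x 0 := hx.2.1 0
    have h3 := hx.1 2
    rw [show 2 + 1 = 3 from rfl, h4] at h3
    exact e2_tri (f (x 0)) (f (x 1)) (f (x 2)) ⟨hx.1 0, hx.1 1, h3⟩
  refine ⟨codeGraph f e2 e2_symm e2_irrefl, ⟨hno, ?_⟩, ?_, by
    rw [hfdef, ← SimpleGraph.coe_edgeFinset, Set.ncard_coe_finset]
    exact card_square⟩
  · intro s hs
    obtain ⟨a, b, c, hab, hac, hbc, rfl⟩ := Finset.card_eq_three.1 hs.card_eq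
    have hadj : ∀ x ∈ ({a, b, c} : Finset _), ∀ y ∈ ({a, b, c} : Finset _), x ≠ y →
        e2 (f x) (f y) = false := by
      intro x hx y hy hxy
      exact bool_false_of fun h3 =>
        hs.isIndepSet (Finset.mem_coe.2 hx) (Finset.mem_coe.2 hy) hxy h3
    exact e2_blue (f a) (f b) (f c) (fun h => hab (hf h)) (fun h => hac (hf h))
      (fun h => hbc (hf h)) ⟨hadj a (by simp) b (by simp) hab, hadj a (by simp) c (by simp) hac,
        hadj b (by simp) c (by simp) hbc⟩
  · rintro ⟨-, c, hc, hu⟩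
    let v0 : Fin ((3 - 1) * (3 - 1)) := ⟨0, by omega⟩
    let v1 : Fin ((3 - 1) * (3 - 1)) := ⟨1, by omega⟩
    let v2 : Fin ((3 - 1) * (3 - 1)) := ⟨2, by omega⟩
    let v3 : Fin ((3 - 1) * (3 - 1)) := ⟨3, by omega⟩
    have hcl : ∀ u v, u ≠ v → c u = c v → e2 (f u) (f v) = true := by
      intro u v huv h
      exact ((clq_iff _ _ _).1 (hc (c v))).1 u (by simp [h]) v (by simp) huv
    have h02 : c v0 ≠ c v2 := by
      intro h
      exact absurd (hcl v0 v2 (by decide) h) (by decide)
    have h13 : c v1 ≠ c v3 := by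
      intro h
      exact absurd (hcl v1 v3 (by decide) h) (by decide)
    have hlt : ∀ v, (c v).val < 2 := fun v => (c v).isLt
    have h0 := hlt v0
    have h1 := hlt v1
    have h2 := hlt v2
    have h3 := hlt v3
    rw [Ne, Fin.ext_iff] at h02 h13
    have e01 : (codeGraph f e2 e2_symm e2_irrefl).Adj v0 v1 := by
      show e2 (f v0) (f v1) = true
      decide
    have e12 : (codeGraph f e2 e2_symm e2_irrefl).Adj v1 v2 := by
      show e2 (f v1) (f v2) = true
      decide
    have e32 : (codeGraph f e2 e2_symm e2_irrefl).Adj v3 v2 := by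
      show e2 (f v3) (f v2) = true
      decide
    have e03 : (codeGraph f e2 e2_symm e2_irrefl).Adj v0 v3 := by
      show e2 (f v0) (f v3) = true
      decide
    rcases Nat.lt_or_ge (c v0).val (c v1).val with h | h
    · have := (hu v0 v1 v3 v2 (Fin.ext (by omega)) (Fin.ext (by omega))
        (fun h' => by rw [h'] at h; omega) e01 e32).1
      exact absurd this (by decide)
    · rcases Nat.eq_or_lt_of_le h with h' | h'
      · have := (hu v1 v2 v0 v3 (Fin.ext (by omega)) (Fin.ext (by omega))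
          (fun h'' => by rw [h''] at h'; omega) e12 e03).1
        exact absurd this (by decide)
      · have := (hu v0 v1 v3 v2 (Fin.ext (by omega)) (Fin.ext (by omega))
          (fun h'' => by rw [h''] at h'; omega) e01 e32).1
        exact absurd this (by decide)

/-- the structure theorem, for all `m ≥ n ≥ 3` -/
theorem structure_iff (m n : ℕ) (hn : 3 ≤ n) (hnm : n ≤ m) :
    (∀ G : SimpleGraph (Fin ((m - 1) * (n - 1))), IsCritical m n G ↔ IsStandard m n G) ↔
      ¬ (m = 3 ∧ n = 3) ∧ ¬ (m = 4 ∧ n = 4) := by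
  constructor
  · intro h
    refine ⟨?_, ?_⟩
    · rintro ⟨rfl, rfl⟩
      obtain ⟨G, hG, hG', -⟩ := critical_three
      exact hG' ((h G).1 hG)
    · rintro ⟨rfl, rfl⟩
      obtain ⟨G, hG, hG', -⟩ := critical_four
      exact hG' ((h G).1 hG)
  · rintro ⟨h3, h4⟩ G
    exact critical_iff m n (by omega) (by omega) hnm G

/-- the numbers of edges of the critical graphs, for all `m ≥ n ≥ 3` -/
theorem edges_iff (m n : ℕ) (hn : 3 ≤ n) (hnm : n ≤ m) :
    {e : ℕ | ∃ G : SimpleGraph (Fin ((m - 1) * (n - 1))), IsCritical m n G ∧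
      G.edgeSet.ncard = e} =
      Set.Icc ((n - 1) * (m - 1).choose 2) ((n - 1) * (m - 1).choose 2 + (n - 1).choose 2) ↔
      ¬ (m = 3 ∧ n = 3) ∧ ¬ (m = 4 ∧ n = 4) := by
  constructor
  · intro h
    refine ⟨?_, ?_⟩
    · rintro ⟨rfl, rfl⟩
      obtain ⟨G, hG, -, hG'⟩ := critical_three
      have : (4 : ℕ) ∈ Set.Icc ((3 - 1) * (3 - 1).choose 2)
          ((3 - 1) * (3 - 1).choose 2 + (3 - 1).choose 2) := by
        rw [← h]
        exact ⟨G, hG, hG'⟩
      exact absurd this (by decide)
    · rintro ⟨rfl, rfl⟩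
      obtain ⟨G, hG, -, hG'⟩ := critical_four
      have : (13 : ℕ) ∈ Set.Icc ((4 - 1) * (4 - 1).choose 2)
          ((4 - 1) * (4 - 1).choose 2 + (4 - 1).choose 2) := by
        rw [← h]
        exact ⟨G, hG, hG'⟩
      exact absurd this (by decide)
  · rintro ⟨h3, h4⟩
    exact critical_edges m n (by omega) (by omega) hnm

end Vale.Agent.P048.H448
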