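import Vale.Agent.P048.H448.Star

/-!
The pair `(4, 3)`.
-/

namespace Vale.Agent.P048.H448

open Finset Vale.Agent.P048

/-- a vertex outside a clique with `M` vertices has at most one neighbour in it -/
theorem few {V : Type*} (G : SimpleGraph V) [DecidableRel G.Adj] (Q : Finset V) (M : ℕ)
    (hM : 2 ≤ M) (hno : ¬ HasC G (M + 1)) (hQ : Clq G Q) (hc : Q.card = M) {x : V} (hx : x ∉ Q) :
    (Q.filter (G.Adj x)).card ≤ 1 := by
  by_contra hlt
  push Not at hlt
  obtain ⟨a, ha, b, hb, hab⟩ := Finset.one_lt_card.1 hlt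
  rw [Finset.mem_filter] at ha hb
  exact hno (two_nbrs G Q M hM hQ hc hx ha.1 hb.1 hab ha.2 hb.2)

theorem ind_three {V : Type*} [DecidableEq V] (G : SimpleGraph V) {a b c : V} (h1 : ¬ G.Adj a b)
    (h2 : ¬ G.Adj a c) (h3 : ¬ G.Adj b c) : Ind G {a, b, c} := by
  intro x hx y hy hxy
  rw [Finset.mem_insert, Finset.mem_insert, Finset.mem_singleton] at hx hy
  rcases hx with rfl | rfl | rfl <;> rcases hy with rfl | rfl | rfl
  · exact hxy.ne rfl
  · exact h1 hxy
  · exact h2 hxy
  · exact h1 hxy.symm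
  · exact hxy.ne rfl
  · exact h3 hxy
  · exact h2 hxy.symm
  · exact h3 hxy.symm
  · exact hxy.ne rfl

theorem clq_three {V : Type*} [DecidableEq V] (G : SimpleGraph V) {a b c : V} (h1 : G.Adj a b)
    (h2 : G.Adj a c) (h3 : G.Adj b c) : Clq G {a, b, c} := by
  intro x hx y hy hxy
  rw [Finset.mem_insert, Finset.mem_insert, Finset.mem_singleton] at hx hy
  rcases hx with rfl | rfl | rfl <;> rcases hy with rfl | rfl | rfl
  · exact absurd rfl hxy
  · exact h1
  · exact h2
  · exact h1.symm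
  · exact absurd rfl hxy
  · exact h3
  · exact h2.symm
  · exact h3.symm
  · exact absurd rfl hxy

/-- `R(3, 3) ≤ 6` inside `W` -/
theorem exists_tri {V : Type*} [DecidableEq V] (G : SimpleGraph V) (W : Finset V)
    (hW : W.card = 6) (hal : AlLe G W 2) : ∃ Q ⊆ W, Clq G Q ∧ Q.card = 3 := by
  classical
  have hind : ∀ a ∈ W, ∀ b ∈ W, ∀ c ∈ W, a ≠ b → a ≠ c → b ≠ c → ¬ G.Adj a b → ¬ G.Adj a c →
      G.Adj b c := by
    intro a ha b hb c hc hab hac hbc h1 h2
    by_contra h3
    have h4 := hal {a, b, c} (by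
      intro x hx
      rw [Finset.mem_insert, Finset.mem_insert, Finset.mem_singleton] at hx
      rcases hx with rfl | rfl | rfl <;> assumption) (ind_three G h1 h2 h3)
    rw [Finset.card_eq_three.2 ⟨a, b, c, hab, hac, hbc, rfl⟩] at h4
    omega
  obtain ⟨w, hw⟩ : W.Nonempty := by
    rw [← Finset.card_pos]
    omega
  have hsum := Finset.card_filter_add_card_filter_not (s := W.erase w) (G.Adj w)
  rw [Finset.card_erase_of_mem hw, hW] at hsum
  rcases (by omega : 3 ≤ ((W.erase w).filter (G.Adj w)).card ∨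
      3 ≤ ((W.erase w).filter (fun u => ¬ G.Adj w u)).card) with h3 | h3
  · obtain ⟨T, hT, hTc⟩ := Finset.exists_subset_card_eq h3
    obtain ⟨a, b, c, hab, hac, hbc, rfl⟩ := Finset.card_eq_three.1 hTc
    have ha := hT (show a ∈ _ by simp)
    have hb := hT (show b ∈ _ by simp)
    have hc := hT (show c ∈ _ by simp)
    simp only [Finset.mem_filter, Finset.mem_erase] at ha hb hc
    by_cases h1 : G.Adj a b
    · refine ⟨{w, a, b}, ?_, clq_three G ha.2 hb.2 h1,
        Finset.card_eq_three.2 ⟨w, a, b, ha.1.1.symm, hb.1.1.symm, hab, rfl⟩⟩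
      intro x hx
      rw [Finset.mem_insert, Finset.mem_insert, Finset.mem_singleton] at hx
      rcases hx with rfl | rfl | rfl
      exacts [hw, ha.1.2, hb.1.2]
    · by_cases h2 : G.Adj a c
      · refine ⟨{w, a, c}, ?_, clq_three G ha.2 hc.2 h2,
          Finset.card_eq_three.2 ⟨w, a, c, ha.1.1.symm, hc.1.1.symm, hac, rfl⟩⟩
        intro x hx
        rw [Finset.mem_insert, Finset.mem_insert, Finset.mem_singleton] at hx
        rcases hx with rfl | rfl | rfl
        exacts [hw, ha.1.2, hc.1.2]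
      · have h5 := hind a ha.1.2 b hb.1.2 c hc.1.2 hab hac hbc h1 h2
        refine ⟨{w, b, c}, ?_, clq_three G hb.2 hc.2 h5,
          Finset.card_eq_three.2 ⟨w, b, c, hb.1.1.symm, hc.1.1.symm, hbc, rfl⟩⟩
        intro x hx
        rw [Finset.mem_insert, Finset.mem_insert, Finset.mem_singleton] at hx
        rcases hx with rfl | rfl | rfl
        exacts [hw, hb.1.2, hc.1.2]
  · obtain ⟨T, hT, hTc⟩ := Finset.exists_subset_card_eq h3
    refine ⟨T, fun x hx => Finset.mem_of_mem_erase (Finset.mem_filter.1 (hT hx)).1, ?_, hTc⟩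
    intro a ha b hb hab
    have ha' := hT ha
    have hb' := hT hb
    rw [Finset.mem_filter, Finset.mem_erase] at ha' hb'
    exact hind w hw a ha'.1.2 b hb'.1.2 ha'.1.1.symm hb'.1.1.symm hab ha'.2 hb'.2

/-- structure of the extremal graphs for `(4, 3)` -/
theorem structure_three {V : Type*} (G : SimpleGraph V) (hno : ¬ HasC G (3 + 1)) (W : Finset V)
    (hW : W.card = 3 * 2) (hal : AlLe G W 2) : Part G W 3 2 := by
  classical
  obtain ⟨Q, hQW, hQ, hQc⟩ := exists_tri G W hW hal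
  have hcard : (W \ Q).card = 3 := by
    rw [Finset.card_sdiff_of_subset hQW]
    omega
  have hd : Disjoint Q (W \ Q) := Finset.disjoint_sdiff
  have hne : Q ≠ W \ Q := by
    intro h
    have : Q.Nonempty := by
      rw [← Finset.card_pos]
      omega
    obtain ⟨x, hx⟩ := this
    exact Finset.disjoint_left.1 hd hx (h ▸ hx)
  refine ⟨{Q, W \ Q}, Finset.card_pair hne, ?_, ?_⟩
  · intro Q' hQ'
    rw [Finset.mem_insert, Finset.mem_singleton] at hQ'
    rcases hQ' with rfl | rfl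
    · exact ⟨hQW, hQ, hQc⟩
    · refine ⟨Finset.sdiff_subset, ?_, hcard⟩
      intro a ha b hb hab
      by_contra hnab
      rw [Finset.mem_sdiff] at ha hb
      -- every vertex of `Q` is joined to `a` or `b`
      have hall : ∀ q ∈ Q, G.Adj a q ∨ G.Adj b q := by
        intro q hq
        by_contra hcon
        push Not at hcon
        have h4 := hal {a, b, q} (by
          intro x hx
          rw [Finset.mem_insert, Finset.mem_insert, Finset.mem_singleton] at hx
          rcases hx with rfl | rfl | rfl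
          exacts [ha.1, hb.1, hQW hq]) (ind_three G hnab hcon.1 hcon.2)
        rw [Finset.card_eq_three.2 ⟨a, b, q, hab, fun h => ha.2 (h ▸ hq),
          fun h => hb.2 (h ▸ hq), rfl⟩] at h4
        omega
      have h1 := few G Q 3 (by omega) hno hQ hQc ha.2
      have h2 := few G Q 3 (by omega) hno hQ hQc hb.2
      have h3 : Q ⊆ Q.filter (G.Adj a) ∪ Q.filter (G.Adj b) := by
        intro q hq
        rw [Finset.mem_union, Finset.mem_filter, Finset.mem_filter]
        rcases hall q hq with h | h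
        · exact Or.inl ⟨hq, h⟩
        · exact Or.inr ⟨hq, h⟩
      have h4 := (Finset.card_le_card h3).trans (Finset.card_union_le _ _)
      omega
  · intro Q1 hQ1 Q2 hQ2 hne'
    rw [Finset.mem_insert, Finset.mem_singleton] at hQ1 hQ2
    rcases hQ1 with rfl | rfl <;> rcases hQ2 with rfl | rfl
    · exact absurd rfl hne'
    · exact hd
    · exact hd.symm
    · exact absurd rfl hne'

/-- two cliques and one more vertex -/
theorem star_two {V : Type*} [DecidableEq V] (G : SimpleGraph V) (hno : ¬ HasC G (3 + 1))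
    (Q1 Q2 S : Finset V) (v : V) (h1 : Clq G Q1) (h2 : Clq G Q2) (hc1 : Q1.card = 3)
    (hc2 : Q2.card = 3) (hd : Disjoint Q1 Q2) (hv1 : v ∉ Q1) (hv2 : v ∉ Q2)
    (hS2 : 2 ≤ (Q2 ∩ S).card) :
    ∃ a ∈ Q1, ∃ b ∈ Q2 ∩ S, ¬ G.Adj v a ∧ ¬ G.Adj v b ∧ ¬ G.Adj a b := by
  classical
  have hb : ∃ b ∈ Q2 ∩ S, ¬ G.Adj v b := by
    by_contra hcon
    push Not at hcon
    have h3 : Q2 ∩ S ⊆ Q2.filter (G.Adj v) := fun b hb =>
      Finset.mem_filter.2 ⟨(Finset.mem_inter.1 hb).1, hcon b hb⟩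
    have h4 := Finset.card_le_card h3
    have h5 := few G Q2 3 (by omega) hno h2 hc2 hv2
    omega
  obtain ⟨b, hb, hvb⟩ := hb
  have hb1 : b ∉ Q1 := fun h => Finset.disjoint_left.1 hd h (Finset.mem_inter.1 hb).1
  have ha : ∃ a ∈ Q1, ¬ G.Adj v a ∧ ¬ G.Adj b a := by
    by_contra hcon
    push Not at hcon
    have h3 : Q1 ⊆ Q1.filter (G.Adj v) ∪ Q1.filter (G.Adj b) := by
      intro q hq
      rw [Finset.mem_union, Finset.mem_filter, Finset.mem_filter]
      by_cases h : G.Adj v q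
      · exact Or.inl ⟨hq, h⟩
      · exact Or.inr ⟨hq, hcon q hq h⟩
    have h4 := (Finset.card_le_card h3).trans (Finset.card_union_le _ _)
    have h5 := few G Q1 3 (by omega) hno h1 hc1 hv1
    have h6 := few G Q1 3 (by omega) hno h1 hc1 hb1
    omega
  obtain ⟨a, ha, hva, hba⟩ := ha
  exact ⟨a, ha, b, hb, hva, hvb, fun h => hba h.symm⟩

theorem star_upper_three {V : Type*} (G : SimpleGraph V) [DecidableEq V]
    (hno : ¬ HasC G (3 + 1)) (W S : Finset V) (v : V) (hW : W.card = 3 * 2)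
    (hv : v ∉ W) (hS : S ⊆ W) (hSc : S.card = 3 * (2 - 1) + 2) :
    ∃ T : Finset V, T ⊆ insert v W ∧ Ind G T ∧ T.card = 2 + 1 ∧
      (v ∈ T → ∀ x ∈ T, x ≠ v → x ∈ S) := by
  classical
  by_contra hcon
  push Not at hcon
  have hal : AlLe G W 2 := by
    intro I hI hIi
    by_contra hlt
    push Not at hlt
    obtain ⟨J, hJI, hJc⟩ := Finset.exists_subset_card_eq (s := I) (n := 2 + 1) (by omega)
    obtain ⟨h1, -⟩ := hcon J ((hJI.trans hI).trans (Finset.subset_insert _ _))
      (fun a ha b hb => hIi a (hJI ha) b (hJI hb)) hJc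
    exact hv (hI (hJI h1))
  obtain ⟨F, hFc, hF, hFd⟩ := structure_three G hno W hW hal
  obtain ⟨Q1, Q2, hne, rfl⟩ := Finset.card_eq_two.1 hFc
  obtain ⟨hQ1W, hQ1, hQ1c⟩ := hF Q1 (by simp)
  obtain ⟨hQ2W, hQ2, hQ2c⟩ := hF Q2 (by simp)
  have hd := hFd Q1 (by simp) Q2 (by simp) hne
  have hWS : (W \ S).card = 1 := by
    rw [Finset.card_sdiff_of_subset hS]
    omega
  have hcomp : ∀ Q ⊆ W, (Q \ S).card ≤ 1 := fun Q hQ =>
    hWS ▸ Finset.card_le_card (Finset.sdiff_subset_sdiff hQ le_rfl)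
  have hsplit : ∀ Q : Finset V, (Q ∩ S).card + (Q \ S).card = Q.card := fun Q =>
    Finset.card_inter_add_card_sdiff Q S
  -- one of the cliques lies in `S`
  have hone : (Q1 \ S).card = 0 ∨ (Q2 \ S).card = 0 := by
    by_contra hcon2
    push Not at hcon2
    have h3 : (Q1 \ S).card + (Q2 \ S).card ≤ (W \ S).card := by
      rw [← Finset.card_union_of_disjoint (Finset.disjoint_of_subset_left Finset.sdiff_subset
        (Finset.disjoint_of_subset_right Finset.sdiff_subset hd))]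
      exact Finset.card_le_card (Finset.union_subset
        (Finset.sdiff_subset_sdiff hQ1W le_rfl) (Finset.sdiff_subset_sdiff hQ2W le_rfl))
    omega
  have hfin : ∀ a b : V, a ∈ S → b ∈ S → a ≠ b → ¬ G.Adj v a → ¬ G.Adj v b → ¬ G.Adj a b →
      False := by
    intro a b ha hb hab h3 h4 h5
    obtain ⟨-, x, hx, hxv, hxS⟩ := hcon {v, a, b} (by
      intro x hx
      rw [Finset.mem_insert, Finset.mem_insert, Finset.mem_singleton] at hx
      rcases hx with rfl | rfl | rfl
      · exact Finset.mem_insert_self _ _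
      · exact Finset.mem_insert_of_mem (hS ha)
      · exact Finset.mem_insert_of_mem (hS hb)) (ind_three G h3 h4 h5)
      (Finset.card_eq_three.2 ⟨v, a, b, fun h => hv (h ▸ hS ha), fun h => hv (h ▸ hS hb), hab,
        rfl⟩)
    rw [Finset.mem_insert, Finset.mem_insert, Finset.mem_singleton] at hx
    rcases hx with rfl | rfl | rfl
    exacts [hxv rfl, hxS ha, hxS hb]
  rcases hone with h0 | h0
  · have hsub : Q1 ⊆ S := Finset.sdiff_eq_empty_iff_subset.1 (Finset.card_eq_zero.1 h0)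
    obtain ⟨a, ha, b, hb, h3, h4, h5⟩ := star_two G hno Q1 Q2 S v hQ1 hQ2 hQ1c hQ2c hd
      (fun h => hv (hQ1W h)) (fun h => hv (hQ2W h))
      (by have := hcomp Q2 hQ2W; have := hsplit Q2; omega)
    exact hfin a b (hsub ha) (Finset.mem_inter.1 hb).2
      (fun h => Finset.disjoint_left.1 hd ha (h ▸ (Finset.mem_inter.1 hb).1)) h3 h4 h5
  · have hsub : Q2 ⊆ S := Finset.sdiff_eq_empty_iff_subset.1 (Finset.card_eq_zero.1 h0)
    obtain ⟨a, ha, b, hb, h3, h4, h5⟩ := star_two G hno Q2 Q1 S v hQ2 hQ1 hQ2c hQ1c hd.symm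
      (fun h => hv (hQ2W h)) (fun h => hv (hQ1W h))
      (by have := hcomp Q1 hQ1W; have := hsplit Q1; omega)
    exact hfin a b (hsub ha) (Finset.mem_inter.1 hb).2
      (fun h => Finset.disjoint_left.1 hd (Finset.mem_inter.1 hb).1 (h ▸ ha)) h3 h4 h5

/-- structure of the extremal graphs, all pairs `m ≥ n` except `(3, 3)`, `(4, 4)` -/
theorem structure_all (m n : ℕ) (hex : 5 ≤ m ∨ (m = 4 ∧ n = 3)) (hnm : n ≤ m) {V : Type*}
    (G : SimpleGraph V) (hno : ¬ HasC G m) (W : Finset V) (hW : W.card = (m - 1) * (n - 1))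
    (hal : AlLe G W (n - 1)) : Part G W (m - 1) (n - 1) := by
  rcases hex with hm | ⟨rfl, rfl⟩
  · exact structure_thm (m - 1) (by omega) G (by rwa [show m - 1 + 1 = m by omega]) (n - 1)
      (by omega) W hW hal
  · exact structure_three G hno W hW hal

theorem star_all (m n : ℕ) (hex : 5 ≤ m ∨ (m = 4 ∧ n = 3)) (hn : 2 ≤ n) (hnm : n ≤ m)
    {V : Type*} [DecidableEq V] (G : SimpleGraph V) (hno : ¬ HasC G m) (W S : Finset V) (v : V)
    (hW : W.card = (m - 1) * (n - 1)) (hv : v ∉ W) (hS : S ⊆ W)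
    (hSc : S.card = (m - 1) * (n - 2) + 2) :
    ∃ T : Finset V, T ⊆ insert v W ∧ Ind G T ∧ T.card = n ∧
      (v ∈ T → ∀ x ∈ T, x ≠ v → x ∈ S) := by
  rcases hex with hm | ⟨rfl, rfl⟩
  · obtain ⟨T, h1, h2, h3, h4⟩ := star_upper G (m - 1) (n - 1) (by omega) (by omega) (by omega)
      (by rwa [show m - 1 + 1 = m by omega]) W S v hW hv hS
      (by rwa [show n - 1 - 1 = n - 2 by omega])
    exact ⟨T, h1, h2, by omega, h4⟩
  · exact star_upper_three G hno W S v hW hv hS hSc

end Vale.Agent.P048.H448
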