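import Vale.Agent.P048.H448.Defs
import Vale.Agent.P048.H448.Four

/-!
Mathlib form of the structure theorem for the extremal graphs and the star-critical numbers.
-/

namespace Vale.Agent.P048.H448

open Finset Vale.Agent.P048

theorem clq_iff {V : Type*} (G : SimpleGraph V) (s : Finset V) (k : ℕ) :
    G.IsNClique k s ↔ Clq G s ∧ s.card = k := by
  rw [SimpleGraph.isNClique_iff]
  constructor
  · rintro ⟨h, hc⟩
    exact ⟨fun u hu v hv huv => h hu hv huv, hc⟩
  · rintro ⟨h, hc⟩
    exact ⟨fun u hu v hv huv => h u hu v hv huv, hc⟩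

theorem extremal_iff (m n : ℕ) (hm : 5 ≤ m ∨ (m = 4 ∧ n = 3)) (hn : 2 ≤ n) (hnm : n ≤ m) {V : Type*} [Fintype V]
    [DecidableEq V] (hV : Fintype.card V = (m - 1) * (n - 1)) (G : SimpleGraph V)
    (hC : ¬ (SimpleGraph.cycleGraph m).IsContained G) :
    (∀ s : Finset V, ¬ G.IsNIndepSet n s) ↔
      ∃ c : V → Fin (n - 1), ∀ i, G.IsNClique (m - 1) (univ.filter (fun v => c v = i)) := by
  classical
  rw [← hasC_iff G m (by omega)] at hC
  constructor
  · intro h
    have hal : AlLe G (Finset.univ : Finset V) (n - 1) := by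
      intro I _ hI
      by_contra hlt
      push Not at hlt
      obtain ⟨J, hJ, hc⟩ := Finset.exists_subset_card_eq (s := I) (n := n) (by omega)
      exact h J ⟨fun u hu v hv _ huv => hI u (hJ hu) v (hJ hv) huv, hc⟩
    obtain ⟨F, hFc, hF, hFd⟩ := structure_all m n hm hnm G hC Finset.univ
      (by rw [Finset.card_univ, hV]) hal
    have hU := Part.sum (G := G) hFc hF hFd (by rw [Finset.card_univ, hV])
    have hex : ∀ v : V, ∃ Q : F, v ∈ Q.1 := by
      intro v
      have hv : v ∈ F.biUnion id := by rw [hU]; exact Finset.mem_univ v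
      obtain ⟨Q, hQ, hvQ⟩ := Finset.mem_biUnion.1 hv
      exact ⟨⟨Q, hQ⟩, hvQ⟩
    choose q hq using hex
    have huniq : ∀ v : V, ∀ Q : F, v ∈ Q.1 → q v = Q := by
      intro v Q hvQ
      by_contra hne
      have hne' : (q v).1 ≠ Q.1 := fun h => hne (Subtype.ext h)
      exact Finset.disjoint_left.1 (hFd _ (q v).2 _ Q.2 hne') (hq v) hvQ
    let e : F ≃ Fin (n - 1) := F.equivFinOfCardEq hFc
    refine ⟨fun v => e (q v), fun i => ?_⟩
    have hcl : univ.filter (fun v => e (q v) = i) = (e.symm i).1 := by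
      ext v
      rw [Finset.mem_filter]
      constructor
      · rintro ⟨-, h1⟩
        rw [← h1, Equiv.symm_apply_apply]
        exact hq v
      · intro h1
        refine ⟨Finset.mem_univ _, ?_⟩
        rw [huniq v _ h1, Equiv.apply_symm_apply]
    rw [hcl, clq_iff]
    exact (hF _ (e.symm i).2).2
  · rintro ⟨c, hc⟩ s hs
    obtain ⟨u, hu, v, hv, hne, huv⟩ := Finset.exists_ne_map_eq_of_card_lt_of_maps_to
      (s := s) (t := (univ : Finset (Fin (n - 1)))) (f := c)
      (by rw [Finset.card_univ, Fintype.card_fin, hs.card_eq]; omega)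
      (fun a _ => Finset.mem_coe.2 (Finset.mem_univ (c a)))
    have h1 := (hc (c u)).isClique (show u ∈ _ by simp) (show v ∈ _ by simp [huv]) hne
    exact hs.isIndepSet hu hv hne h1

/-- at most one edge between two classes -/
theorem cross_unique (m n : ℕ) (hm : 4 ≤ m) {V : Type*} [Fintype V]
    [DecidableEq V] (G : SimpleGraph V)
    (hC : ¬ (SimpleGraph.cycleGraph m).IsContained G)
    (c : V → Fin (n - 1)) (hc : ∀ i, G.IsNClique (m - 1) (univ.filter (fun v => c v = i)))
    (u v u' v' : V) (h1 : c u = c u') (h2 : c v = c v') (h3 : c u ≠ c v) (h4 : G.Adj u v)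
    (h5 : G.Adj u' v') : u = u' ∧ v = v' := by
  classical
  by_contra hne
  apply hC
  rw [← hasC_iff G m (by omega)]
  have hu := (clq_iff _ _ _).1 (hc (c u))
  have hv := (clq_iff _ _ _).1 (hc (c v))
  have := two_cross G (univ.filter (fun w => c w = c u)) (univ.filter (fun w => c w = c v)) (m - 1)
    (by omega) hu.1 hv.1 hu.2 hv.2 (by
      rw [Finset.disjoint_left]
      intro w hw hw'
      rw [Finset.mem_filter] at hw hw'
      exact h3 (hw.2.symm.trans hw'.2)) (a := u) (b := u') (a' := v) (b' := v')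
      (by simp) (by simp [h1]) (by simp) (by simp [h2]) h4 h5 (by
        rintro ⟨h6, h7⟩
        exact hne ⟨h6, h7⟩)
  rwa [show m - 1 + 1 = m by omega] at this

/-- the star-critical number: upper bound -/
theorem star_arrows (m n : ℕ) (hm : 5 ≤ m ∨ (m = 4 ∧ n = 3)) (hn : 2 ≤ n) (hnm : n ≤ m) :
    Arrows (starComplete ((m - 1) * (n - 1)) ((m - 1) * (n - 2) + 2)) m n := by
  classical
  intro R hR
  by_cases hC : HasC R m
  · exact Or.inl ((hasC_iff R m (by omega)).1 hC)
  right
  have hmul : (m - 1) * (n - 2) + (m - 1) = (m - 1) * (n - 1) := by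
    rw [show n - 1 = n - 2 + 1 by omega, Nat.mul_succ]
  obtain ⟨T, hTW, hT, hTc, hTS⟩ := star_all m n hm hn hnm R hC
    ((univ : Finset (Fin ((m - 1) * (n - 1)))).map Function.Embedding.some)
    (((univ : Finset (Fin ((m - 1) * (n - 1)))).filter
      (fun i => i.val < (m - 1) * (n - 2) + 2)).map Function.Embedding.some) none
    (by rw [Finset.card_map, Finset.card_univ, Fintype.card_fin])
    (by simp)
    (Finset.map_subset_map.2 (Finset.filter_subset _ _))
    (by
      rw [Finset.card_map, Fin.card_filter_val_lt]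
      omega)
  refine ⟨T, (SimpleGraph.isNClique_iff _).2 ⟨?_, hTc⟩⟩
  intro x hx y hy hxy
  rw [SimpleGraph.sdiff_adj]
  refine ⟨⟨hxy, ?_, ?_⟩, fun h => hT x hx y hy h⟩
  · rintro rfl
    have h1 := hTS hx y hy hxy.symm
    rw [Finset.mem_map] at h1
    obtain ⟨i, hi, rfl⟩ := h1
    rw [Finset.mem_filter] at hi
    exact ⟨i, rfl, hi.2⟩
  · rintro rfl
    have h1 := hTS hy x hx hxy
    rw [Finset.mem_map] at h1
    obtain ⟨i, hi, rfl⟩ := h1
    rw [Finset.mem_filter] at hi
    exact ⟨i, rfl, hi.2⟩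

end Vale.Agent.P048.H448
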