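import Vale.Agent.P048.H448.Final

/-!
Lower bounds: a cycle cannot cross a cut vertex; star-critical lower bound.
-/

namespace Vale.Agent.P048.H448

open Finset Vale.Agent.P048

/-- a cycle does not cross a cut vertex `z` -/
theorem cut {V : Type*} {G : SimpleGraph V} {k : ℕ} {x : ℕ → V} (hx : IsF G k x) (hk : 1 ≤ k)
    (P : V → Prop) (z : V) (hP : ∀ u v, P u → ¬ P v → G.Adj u v → u = z) :
    (∀ i, P (x i)) ∨ ∀ i, ¬ P (x i) ∨ x i = z := by
  classical
  by_contra hcon
  push Not at hcon
  obtain ⟨⟨b, hb⟩, a, ha, haz⟩ := hcon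
  -- shift to start at `a`
  have hy := hx.shift a
  set y : ℕ → V := fun t => x (a + t) with hydef
  have hy0 : P (y 0) := by simpa [hydef] using ha
  have hy0z : y 0 ≠ z := by simpa [hydef] using haz
  have hexb : ∃ t, t < k ∧ ¬ P (y t) := by
    refine ⟨(b + (k - a % k)) % k, Nat.mod_lt _ (by omega), ?_⟩
    rw [hy.mod]
    show ¬ P (x (a + (b + (k - a % k))))
    have h1 := Nat.mod_lt a (show 0 < k by omega)
    rw [← hx.mod_add, show a % k + (b + (k - a % k)) = b + k by omega, hx.2.1]
    exact hb
  have hex1 : ∃ t, ¬ P (y t) := ⟨hexb.choose, hexb.choose_spec.2⟩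
  obtain ⟨b', hb'k, hb'⟩ := hexb
  -- first exit
  have h1 := Nat.find_spec hex1
  have h1min : ∀ t, t < Nat.find hex1 → P (y t) := fun t ht => not_not.1 (Nat.find_min hex1 ht)
  have h1le : Nat.find hex1 ≤ b' := Nat.find_min' hex1 hb'
  have h1pos : Nat.find hex1 ≠ 0 := by
    intro h
    rw [h] at h1
    exact h1 hy0
  set t1 := Nat.find hex1 with ht1
  -- last exit
  have hex2 : ∃ s, ¬ P (y (k - s)) ∧ s ≤ k := ⟨k - b', by
    rw [show k - (k - b') = b' by omega]
    exact ⟨hb', by omega⟩⟩
  have h2 := Nat.find_spec hex2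
  have h2min : ∀ s, s < Nat.find hex2 → P (y (k - s)) := by
    intro s hs
    by_contra h
    exact Nat.find_min hex2 hs ⟨h, by omega⟩
  have h2pos : Nat.find hex2 ≠ 0 := by
    intro h
    rw [h] at h2
    apply h2.1
    have := hy.2.1 0
    rw [Nat.zero_add] at this
    rw [Nat.sub_zero, this]
    exact hy0
  have h2le : Nat.find hex2 ≤ k - b' := Nat.find_min' hex2 (by
    rw [show k - (k - b') = b' by omega]
    exact ⟨hb', by omega⟩)
  set s2 := Nat.find hex2 with hs2
  -- the two crossings
  have hz1 : y (t1 - 1) = z := by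
    apply hP _ (y t1) (h1min _ (by omega)) h1
    have := hy.1 (t1 - 1)
    rwa [show t1 - 1 + 1 = t1 by omega] at this
  have hz2 : y (k - s2 + 1) = z := by
    have h3 := h2min (s2 - 1) (by omega)
    rw [show k - (s2 - 1) = k - s2 + 1 by omega] at h3
    exact hP _ (y (k - s2)) h3 h2.1 (hy.1 (k - s2)).symm
  have hne1 : t1 - 1 ≠ 0 := by
    intro h
    rw [h] at hz1
    exact hy0z hz1
  have hne2 : k - s2 + 1 ≠ k := by
    intro h
    rw [h] at hz2
    have := hy.2.1 0
    rw [Nat.zero_add] at this
    rw [this] at hz2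
    exact hy0z hz2
  have := hy.2.2 (t1 - 1) (k - s2 + 1) (by omega) (by omega) (hz1.trans hz2.symm)
  omega

/-- a cycle inside a set with an injective code is short -/
theorem short {V : Type*} {G : SimpleGraph V} {m r : ℕ} {x : ℕ → V} (hx : IsF G m x)
    (f : V → ℕ) (hf : ∀ i, f (x i) < r) (hinj : ∀ i j, f (x i) = f (x j) → x i = x j)
    (hr : r < m) : False := by
  classical
  obtain ⟨i, hi, j, hj, hne, hij⟩ := Finset.exists_ne_map_eq_of_card_lt_of_maps_to
    (s := range m) (t := range r) (f := fun i => f (x i)) (by simpa using hr)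
    (fun i _ => by
      rw [Finset.mem_coe, Finset.mem_range]
      exact hf i)
  rw [Finset.mem_range] at hi hj
  exact hne (hx.2.2 i j hi hj (hinj i j hij))

/-- the critical red graph: `n - 1` cliques with `m - 1` vertices, and `none` joined to the first
vertex of the last clique -/
def critRed (m n : ℕ) : SimpleGraph (Option (Fin ((m - 1) * (n - 1)))) where
  Adj x y := x ≠ y ∧
    (∀ i j : Fin ((m - 1) * (n - 1)), x = some i → y = some j → i.val / (m - 1) = j.val / (m - 1)) ∧
    (∀ i : Fin ((m - 1) * (n - 1)), x = none → y = some i → i.val = (m - 1) * (n - 2)) ∧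
    (∀ i : Fin ((m - 1) * (n - 1)), y = none → x = some i → i.val = (m - 1) * (n - 2))
  symm := ⟨fun _ _ h => ⟨h.1.symm, fun i j hi hj => (h.2.1 j i hj hi).symm, h.2.2.2, h.2.2.1⟩⟩
  loopless := ⟨fun _ h => h.1 rfl⟩

theorem critRed_no (m n : ℕ) (hm : 3 ≤ m) (hn : 2 ≤ n) : ¬ HasC (critRed m n) m := by
  classical
  rintro ⟨l, hlen, hl⟩
  obtain ⟨x, hx, -⟩ := IsC.exists_isF _ l hl (by omega)
  rw [hlen] at hx
  have hpos : 0 < m - 1 := by omega
  have hlt : (m - 1) * (n - 2) < (m - 1) * (n - 1) :=
    Nat.mul_lt_mul_of_pos_left (by omega) hpos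
  rcases cut hx (by omega) (fun v => v ≠ none) (some ⟨(m - 1) * (n - 2), hlt⟩) (by
    intro u v hu hv huv
    obtain ⟨i, rfl⟩ := Option.ne_none_iff_exists'.1 hu
    have hv' : v = none := not_not.1 hv
    have := huv.2.2.2 i hv' rfl
    exact congrArg some (Fin.ext this)) with h | h
  · -- all vertices are in `Fin N`
    have hconst : ∀ i, ((x i).elim 0 (fun a => a.val)) / (m - 1)
        = ((x 0).elim 0 (fun a => a.val)) / (m - 1) := by
      intro i
      induction i with
      | zero => rfl
      | succ i ih =>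
        rw [← ih]
        obtain ⟨a, ha⟩ := Option.ne_none_iff_exists'.1 (h i)
        obtain ⟨b, hb⟩ := Option.ne_none_iff_exists'.1 (h (i + 1))
        have h1 := (hx.1 i).2.1 a b ha hb
        rw [ha, hb]
        exact h1.symm
    refine short hx (fun v => (v.elim 0 (fun a => a.val)) % (m - 1)) (r := m - 1)
      (fun i => Nat.mod_lt _ hpos) ?_ (by omega)
    intro i j hij
    obtain ⟨a, ha⟩ := Option.ne_none_iff_exists'.1 (h i)
    obtain ⟨b, hb⟩ := Option.ne_none_iff_exists'.1 (h j)
    have h1 := hconst i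
    have h2 := hconst j
    rw [← h2] at h1
    simp only [ha, hb, Option.elim_some] at h1 hij ⊢
    have h3 := Nat.div_add_mod a.val (m - 1)
    have h4 := Nat.div_add_mod b.val (m - 1)
    rw [h1] at h3
    exact congrArg some (Fin.ext (by omega))
  · -- all vertices are `none` or the attachment vertex
    refine short hx (fun v => if v = none then 0 else 1) (r := 2) ?_ ?_ (by omega)
    · intro i
      split_ifs <;> omega
    · intro i j hij
      rcases h i with h1 | h1 <;> rcases h j with h2 | h2
      · rw [not_not.1 h1, not_not.1 h2]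
      · rw [not_not.1 h1, h2] at hij
        simp at hij
      · rw [h1, not_not.1 h2] at hij
        simp at hij
      · rw [h1, h2]

theorem star_not_arrows (m n k : ℕ) (hm : 3 ≤ m) (hn : 2 ≤ n) (hk : k ≤ (m - 1) * (n - 2) + 1) :
    ¬ Arrows (starComplete ((m - 1) * (n - 1)) k) m n := by
  classical
  intro h
  have hpos : 0 < m - 1 := by omega
  rcases h (critRed m n ⊓ starComplete ((m - 1) * (n - 1)) k) inf_le_right with h1 | ⟨T, hT⟩
  · rw [← hasC_iff _ m hm] at h1
    apply critRed_no m n hm hn
    rw [hasC_iff _ m hm]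
    rw [hasC_iff _ m hm] at h1
    exact h1.mono_right inf_le_left
  · rw [SimpleGraph.isNClique_iff] at hT
    obtain ⟨hTc, hTn⟩ := hT
    have hadj : ∀ x ∈ T, ∀ y ∈ T, x ≠ y →
        (starComplete ((m - 1) * (n - 1)) k).Adj x y ∧ ¬ (critRed m n).Adj x y := by
      intro x hx y hy hxy
      have h2 := hTc hx hy hxy
      rw [SimpleGraph.sdiff_adj, SimpleGraph.inf_adj] at h2
      exact ⟨h2.1, fun h3 => h2.2 ⟨h3, h2.1⟩⟩
    by_cases hnone : none ∈ T
    · -- the other vertices lie in the first `n - 2` cliques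
      have hother : ∀ i : Fin ((m - 1) * (n - 1)), some i ∈ T → i.val < (m - 1) * (n - 2) := by
        intro i hi
        obtain ⟨h2, h3⟩ := hadj none hnone (some i) hi (by simp)
        obtain ⟨j, hj, hjk⟩ := h2.2.1 rfl
        rw [Option.some.injEq] at hj
        subst hj
        have h4 : i.val ≠ (m - 1) * (n - 2) := by
          intro h5
          apply h3
          refine ⟨by simp, by simp, ?_, by simp⟩
          intro j _ hj
          rw [Option.some.injEq] at hj
          rw [← hj]
          exact h5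
        omega
      obtain ⟨a, ha, b, hb, hne, hab⟩ := Finset.exists_ne_map_eq_of_card_lt_of_maps_to
        (s := T.erase none) (t := range (n - 2))
        (f := fun v => (v.elim 0 (fun a => a.val)) / (m - 1))
        (by rw [Finset.card_erase_of_mem hnone, Finset.card_range]; omega)
        (by
          intro v hv
          rw [Finset.mem_coe, Finset.mem_erase] at hv
          obtain ⟨i, rfl⟩ := Option.ne_none_iff_exists'.1 hv.1
          rw [Finset.mem_coe, Finset.mem_range]
          exact Nat.div_lt_of_lt_mul (hother i hv.2))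
      rw [Finset.mem_erase] at ha hb
      obtain ⟨i, rfl⟩ := Option.ne_none_iff_exists'.1 ha.1
      obtain ⟨j, rfl⟩ := Option.ne_none_iff_exists'.1 hb.1
      apply (hadj _ ha.2 _ hb.2 hne).2
      refine ⟨hne, ?_, by simp, by simp⟩
      intro i' j' hi' hj'
      rw [Option.some.injEq] at hi' hj'
      subst hi' hj'
      exact hab
    · obtain ⟨a, ha, b, hb, hne, hab⟩ := Finset.exists_ne_map_eq_of_card_lt_of_maps_to
        (s := T) (t := range (n - 1))
        (f := fun v => (v.elim 0 (fun a => a.val)) / (m - 1))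
        (by rw [Finset.card_range]; omega)
        (by
          intro v hv
          rw [Finset.mem_coe] at hv
          obtain ⟨i, rfl⟩ := Option.ne_none_iff_exists'.1 (fun h => hnone (h ▸ hv))
          rw [Finset.mem_coe, Finset.mem_range]
          exact Nat.div_lt_of_lt_mul i.isLt)
      obtain ⟨i, rfl⟩ := Option.ne_none_iff_exists'.1 (fun h => hnone (h ▸ ha))
      obtain ⟨j, rfl⟩ := Option.ne_none_iff_exists'.1 (fun h => hnone (h ▸ hb))
      apply (hadj _ ha _ hb hne).2
      refine ⟨hne, ?_, by simp, by simp⟩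
      intro i' j' hi' hj'
      rw [Option.some.injEq] at hi' hj'
      subst hi' hj'
      exact hab

/-- the star-critical Ramsey number of `C_m` versus `K_n` -/
theorem star_critical (m n : ℕ) (hm : 5 ≤ m ∨ (m = 4 ∧ n = 3)) (hn : 2 ≤ n) (hnm : n ≤ m) :
    IsLeast {k : ℕ | Arrows (starComplete ((m - 1) * (n - 1)) k) m n} ((m - 1) * (n - 2) + 2) := by
  refine ⟨star_arrows m n hm hn hnm, fun k hk => ?_⟩
  by_contra hlt
  exact star_not_arrows m n k (by omega) hn (by omega) hk

end Vale.Agent.P048.H448
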