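import Vale.Agent.P048.H448.Edges

/-!
Extremal graphs with a prescribed number of edges.
-/

namespace Vale.Agent.P048.H448

open Finset Vale.Agent.P048

/-- `k` cliques with `M` vertices, and the first vertices of the cliques are joined according to
`J` -/
def repGraph {V : Type*} {k M : ℕ} (φ : V ≃ Fin k × Fin M) (J : Finset (Sym2 (Fin k))) :
    SimpleGraph V where
  Adj x y := x ≠ y ∧ ((φ x).1 = (φ y).1 ∨
    ((φ x).2.val = 0 ∧ (φ y).2.val = 0 ∧ s((φ x).1, (φ y).1) ∈ J))
  symm := ⟨fun x y h => ⟨h.1.symm, by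
    rcases h.2 with h1 | ⟨h1, h2, h3⟩
    · exact Or.inl h1.symm
    · exact Or.inr ⟨h2, h1, by rwa [Sym2.eq_swap]⟩⟩⟩
  loopless := ⟨fun _ h => h.1 rfl⟩

theorem repGraph_no {V : Type*} {k M : ℕ} (φ : V ≃ Fin k × Fin M) (J : Finset (Sym2 (Fin k)))
    (hk : k ≤ M) (hM : 2 ≤ M) : ¬ HasC (repGraph φ J) (M + 1) := by
  classical
  rintro ⟨l, hlen, hl⟩
  obtain ⟨x, hx, -⟩ := IsC.exists_isF _ l hl (by omega)
  rw [hlen] at hx
  have hcut : ∀ i : Fin k, (∀ t, (φ (x t)).1 = i) ∨
      ∀ t, ¬ (φ (x t)).1 = i ∨ x t = φ.symm (i, ⟨0, by omega⟩) := by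
    intro i
    refine cut hx (by omega) (fun v => (φ v).1 = i) _ ?_
    intro u v hu hv huv
    rcases huv.2 with h1 | ⟨h1, -, -⟩
    · exact absurd (h1.symm.trans hu) hv
    · rw [Equiv.eq_symm_apply]
      exact Prod.ext hu (Fin.ext h1)
  by_cases hex : ∃ i : Fin k, ∀ t, (φ (x t)).1 = i
  · obtain ⟨i, hi⟩ := hex
    refine short hx (fun v => (φ v).2.val) (r := M) (fun t => (φ (x t)).2.isLt) ?_ (by omega)
    intro s t hst
    apply φ.injective
    exact Prod.ext ((hi s).trans (hi t).symm) (Fin.ext hst)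
  · push Not at hex
    have hall : ∀ t, x t = φ.symm ((φ (x t)).1, ⟨0, by omega⟩) := by
      intro t
      rcases hcut (φ (x t)).1 with h1 | h1
      · obtain ⟨s, hs⟩ := hex (φ (x t)).1
        exact absurd (h1 s) hs
      · rcases h1 t with h2 | h2
        · exact absurd rfl h2
        · exact h2
    refine short hx (fun v => (φ v).1.val) (r := k) (fun t => (φ (x t)).1.isLt) ?_ (by omega)
    intro s t hst
    rw [hall s, hall t, Fin.ext hst]

theorem repGraph_class {V : Type*} [Fintype V] [DecidableEq V] {k M : ℕ} (φ : V ≃ Fin k × Fin M)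
    (J : Finset (Sym2 (Fin k))) (i : Fin k) :
    (repGraph φ J).IsNClique M (univ.filter (fun v => (φ v).1 = i)) := by
  classical
  rw [clq_iff]
  constructor
  · intro u hu v hv huv
    rw [Finset.mem_filter] at hu hv
    exact ⟨huv, Or.inl (hu.2.trans hv.2.symm)⟩
  · have h1 : (univ.filter (fun v => (φ v).1 = i)) =
        (univ : Finset (Fin M)).image (fun a => φ.symm (i, a)) := by
      ext v
      rw [Finset.mem_filter, Finset.mem_image]
      constructor
      · rintro ⟨-, h1⟩
        refine ⟨(φ v).2, Finset.mem_univ _, ?_⟩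
        rw [Equiv.symm_apply_eq]
        exact Prod.ext h1.symm rfl
      · rintro ⟨a, -, rfl⟩
        exact ⟨Finset.mem_univ _, by simp⟩
    rw [h1, Finset.card_image_of_injective, Finset.card_univ, Fintype.card_fin]
    intro a b hab
    have := φ.symm.injective hab
    exact (Prod.ext_iff.1 this).2

theorem repGraph_out {V : Type*} [Fintype V] [DecidableEq V] {k M : ℕ} (φ : V ≃ Fin k × Fin M)
    (hM : 1 ≤ M) (J : Finset (Sym2 (Fin k))) (hJ : ∀ z ∈ J, ¬ z.IsDiag)
    [DecidableRel (repGraph φ J).Adj] :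
    ((repGraph φ J).edgeFinset.filter
      (fun e => ¬ (Sym2.map (fun v => (φ v).1) e).IsDiag)).card = J.card := by
  classical
  apply Finset.card_bij (fun e _ => Sym2.map (fun v => (φ v).1) e)
  · intro e he
    rw [Finset.mem_filter] at he
    induction e with
    | _ u v =>
      rw [SimpleGraph.mem_edgeFinset, SimpleGraph.mem_edgeSet, Sym2.map_mk,
        Sym2.mk_isDiag_iff] at he
      rcases he.1.2 with h1 | ⟨-, -, h1⟩
      · exact absurd h1 he.2
      · exact h1
  · intro e he e' he' hee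
    rw [Finset.mem_filter] at he he'
    induction e with
    | _ u v =>
      induction e' with
      | _ u' v' =>
        rw [SimpleGraph.mem_edgeFinset, SimpleGraph.mem_edgeSet, Sym2.map_mk,
          Sym2.mk_isDiag_iff] at he he'
        rcases he.1.2 with h1 | ⟨hu, hv, -⟩
        · exact absurd h1 he.2
        rcases he'.1.2 with h1 | ⟨hu', hv', -⟩
        · exact absurd h1 he'.2
        rw [Sym2.map_mk, Sym2.map_mk, Sym2.eq_iff] at hee
        rcases hee with ⟨h1, h2⟩ | ⟨h1, h2⟩
        · have e1 : u = u' := φ.injective (Prod.ext h1 (Fin.ext (hu.trans hu'.symm)))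
          have e2 : v = v' := φ.injective (Prod.ext h2 (Fin.ext (hv.trans hv'.symm)))
          rw [e1, e2]
        · have e1 : u = v' := φ.injective (Prod.ext h1 (Fin.ext (hu.trans hv'.symm)))
          have e2 : v = u' := φ.injective (Prod.ext h2 (Fin.ext (hv.trans hu'.symm)))
          rw [e1, e2]
          exact Sym2.eq_swap
  · intro z hz
    induction z with
    | _ i j =>
      refine ⟨s(φ.symm (i, ⟨0, by omega⟩), φ.symm (j, ⟨0, by omega⟩)), ?_, by simp⟩
      have hij : i ≠ j := fun h => hJ _ hz (Sym2.mk_isDiag_iff.2 h)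
      rw [Finset.mem_filter, SimpleGraph.mem_edgeFinset, SimpleGraph.mem_edgeSet, Sym2.map_mk,
        Sym2.mk_isDiag_iff]
      refine ⟨⟨?_, Or.inr ⟨by simp, by simp, by simpa using hz⟩⟩, by simpa using hij⟩
      intro h
      have := φ.symm.injective h
      exact hij (Prod.ext_iff.1 this).1

end Vale.Agent.P048.H448
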