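import Vale.Agent.P048.H448.Clique

set_option linter.all false
set_option autoImplicit false

/-!
The case of equality for the cycles of lengths `5`, `6`, `7`, `8`.
-/

namespace Vale.Agent.P048.H448

open Finset Vale.Agent.P048

variable {V : Type*}

/-- a vertex with three independent neighbours -/
theorem root_eq5 (G : SimpleGraph V) (W : Finset V) (M a : ℕ) (hM : 5 ≤ M)
    (hno : ¬ HasC G (M + 1)) (hdeg : ∀ v ∈ W, M ≤ dg G W v) (hal : AlLe G W a) (ha1 : 1 ≤ a)
    (hW : M * a ≤ W.card)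
    (hcl : ∀ K ⊆ W, Clq G K → K.card ≤ M / 2 + 1) :
    ∃ r ∈ W, ∃ I ⊆ W, Ind G I ∧ (∀ w ∈ I, G.Adj r w) ∧ 3 ≤ I.card := by
  classical
  by_contra hcon
  push Not at hcon
  have hal2 : ∀ r ∈ W, AlLe G (W.filter (G.Adj r)) 2 := by
    intro r hr I hI hInd
    have := hcon r hr I (hI.trans (Finset.filter_subset _ _)) hInd
      (fun w hw => (Finset.mem_filter.1 (hI hw)).2)
    omega
  have hdeg1 : ∀ r ∈ W, (W.filter (G.Adj r)).card ≤ (M / 2) * 2 := fun r hr =>
    nbhd_light G W M (by omega) hno hcl r hr _ (Finset.filter_subset _ _)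
      (fun w hw => (Finset.mem_filter.1 hw).2) 2 (hal2 r hr)
  have hdeg2 : ∀ r ∈ W, M ≤ (W.filter (G.Adj r)).card := by
    intro r hr
    have := hdeg r hr
    rwa [dg_eq_filter] at this
  obtain ⟨Y, hYW, hYi, hYmax⟩ := exists_max_ind G W
  have hYa : Y.card ≤ a := hal Y hYW hYi
  -- outside vertices have one or two neighbours in `Y`
  have hnb : ∀ w ∈ W \ Y, 1 ≤ (Y.filter (G.Adj w)).card ∧ (Y.filter (G.Adj w)).card ≤ 2 := by
    intro w hw
    rw [Finset.mem_sdiff] at hw
    constructor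
    · by_contra h0
      have h0' : Y.filter (G.Adj w) = ∅ := Finset.card_eq_zero.1 (by omega)
      have h1 : Ind G (insert w Y) := hYi.insert (by
        intro y hy hadj
        have : y ∈ Y.filter (G.Adj w) := Finset.mem_filter.2 ⟨hy, hadj.symm⟩
        rw [h0'] at this
        exact absurd this (Finset.notMem_empty _))
      have h2 := hYmax (insert w Y) (Finset.insert_subset hw.1 hYW) h1
      rw [Finset.card_insert_of_notMem hw.2] at h2
      omega
    · refine hal2 w hw.1 _ ?_ ?_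
      · intro y hy
        rw [Finset.mem_filter] at hy ⊢
        exact ⟨hYW hy.1, hy.2⟩
      · intro u hu v hv
        exact hYi u (Finset.mem_filter.1 hu).1 v (Finset.mem_filter.1 hv).1
  -- double counting
  have hsum : ∑ w ∈ W \ Y, (Y.filter (G.Adj w)).card = ∑ y ∈ Y, ((W \ Y).filter (G.Adj y)).card := by
    have := Finset.sum_card_bipartiteAbove_eq_sum_card_bipartiteBelow (s := W \ Y) (t := Y)
      (fun w y => G.Adj w y)
    rw [Finset.sum_congr rfl (fun w _ => ?_), this]
    · refine Finset.sum_congr rfl fun y _ => ?_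
      congr 1
      ext w
      simp [Finset.bipartiteBelow, G.adj_comm]
    · rfl
  have hsumY : ∀ y ∈ Y, ((W \ Y).filter (G.Adj y)).card = (W.filter (G.Adj y)).card := by
    intro y hy
    congr 1
    ext w
    simp only [Finset.mem_filter, Finset.mem_sdiff]
    constructor
    · rintro ⟨⟨h1, -⟩, h2⟩; exact ⟨h1, h2⟩
    · rintro ⟨h1, h2⟩; exact ⟨⟨h1, fun h => hYi y hy w h h2⟩, h2⟩
  set P := (W \ Y).filter (fun w => (Y.filter (G.Adj w)).card = 1) with hP
  set Q := (W \ Y).filter (fun w => ¬ (Y.filter (G.Adj w)).card = 1) with hQ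
  have hPQ : P.card + Q.card = (W \ Y).card := by
    rw [hP, hQ]
    exact Finset.card_filter_add_card_filter_not _
  have hPQ2 : P.card + 2 * Q.card = ∑ w ∈ W \ Y, (Y.filter (G.Adj w)).card := by
    rw [← Finset.sum_filter_add_sum_filter_not (W \ Y) (fun w => (Y.filter (G.Adj w)).card = 1)]
    congr 1
    · rw [Finset.sum_congr rfl (g := fun _ => 1) (fun w hw => (Finset.mem_filter.1 hw).2)]
      simp [hP]
    · rw [Finset.sum_congr rfl (g := fun _ => 2) (fun w hw => ?_)]
      · simp [hQ, Nat.mul_comm]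
      · rw [Finset.mem_filter] at hw
        have := hnb w hw.1
        omega
  have hub : ∑ w ∈ W \ Y, (Y.filter (G.Adj w)).card ≤ Y.card * M := by
    rw [hsum, Finset.sum_congr rfl hsumY]
    refine (Finset.sum_le_card_nsmul Y _ M fun y hy => ?_)
    have := hdeg1 y (hYW hy)
    omega
  have hcardWY : (W \ Y).card + Y.card = W.card := Finset.card_sdiff_add_card_eq_card hYW
  have hMY : M * Y.card ≤ M * a := Nat.mul_le_mul_left _ hYa
  -- private neighbours
  have hPub : P.card ≤ Y.card * (M / 2) := by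
    have h1 : P ⊆ Y.biUnion (fun y => P.filter (fun w => G.Adj w y)) := by
      intro w hw
      have h2 := (Finset.mem_filter.1 hw).2
      obtain ⟨y, hy⟩ := Finset.card_eq_one.1 h2
      have h3 : y ∈ Y.filter (G.Adj w) := by rw [hy]; simp
      rw [Finset.mem_filter] at h3
      rw [Finset.mem_biUnion]
      exact ⟨y, h3.1, Finset.mem_filter.2 ⟨hw, h3.2⟩⟩
    refine (Finset.card_le_card h1).trans ?_
    refine Finset.card_biUnion_le_card_mul _ _ _ fun y hy => ?_
    have huniq : ∀ w ∈ P.filter (fun w => G.Adj w y), w ∈ W ∧ w ∉ Y ∧ G.Adj w y ∧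
        ∀ y' ∈ Y, G.Adj w y' → y' = y := by
      intro w hw
      rw [Finset.mem_filter] at hw
      have hw1 := Finset.mem_filter.1 hw.1
      obtain ⟨z, hz⟩ := Finset.card_eq_one.1 hw1.2
      refine ⟨(Finset.mem_sdiff.1 hw1.1).1, (Finset.mem_sdiff.1 hw1.1).2, hw.2, ?_⟩
      intro y' hy' hadj
      have h4 : y' ∈ Y.filter (G.Adj w) := Finset.mem_filter.2 ⟨hy', hadj⟩
      have h5 : y ∈ Y.filter (G.Adj w) := Finset.mem_filter.2 ⟨hy, hw.2⟩
      rw [hz, Finset.mem_singleton] at h4 h5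
      rw [h4, h5]
    have hclq : Clq G (insert y (P.filter (fun w => G.Adj w y))) := by
      intro u hu w hw huw
      rcases Finset.mem_insert.1 hu with h5 | h5 <;> rcases Finset.mem_insert.1 hw with h6 | h6
      · exact absurd (h5.trans h6.symm) huw
      · rw [h5]; exact (huniq w h6).2.2.1.symm
      · rw [h6]; exact (huniq u h5).2.2.1
      · by_contra hnadj
        obtain ⟨huW, huY, huy, huu⟩ := huniq u h5
        obtain ⟨hwW, hwY, hwy, hwu⟩ := huniq w h6
        have h7 : Ind G (insert u (insert w (Y.erase y))) := by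
          refine Ind.insert (Ind.insert ?_ ?_) ?_
          · intro a ha b hb
            exact hYi a (Finset.mem_of_mem_erase ha) b (Finset.mem_of_mem_erase hb)
          · intro z hz hadj
            exact (Finset.mem_erase.1 hz).1 (hwu z (Finset.mem_erase.1 hz).2 hadj.symm)
          · intro z hz hadj
            rcases Finset.mem_insert.1 hz with h8 | h8
            · rw [h8] at hadj
              exact hnadj hadj.symm
            · exact (Finset.mem_erase.1 h8).1 (huu z (Finset.mem_erase.1 h8).2 hadj.symm)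
        have h8 := hYmax _ (by
          intro z hz
          rcases Finset.mem_insert.1 hz with h9 | h9
          · rw [h9]; exact huW
          · rcases Finset.mem_insert.1 h9 with h10 | h10
            · rw [h10]; exact hwW
            · exact hYW (Finset.mem_of_mem_erase h10)) h7
        rw [Finset.card_insert_of_notMem, Finset.card_insert_of_notMem,
          Finset.card_erase_of_mem hy] at h8
        · have : 0 < Y.card := Finset.card_pos.2 ⟨y, hy⟩
          omega
        · intro h; exact hwY (Finset.mem_of_mem_erase h)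
        · intro h
          rcases Finset.mem_insert.1 h with h9 | h9
          · exact huw h9
          · exact huY (Finset.mem_of_mem_erase h9)
    have h6 := hcl _ (by
      intro z hz
      rcases Finset.mem_insert.1 hz with h9 | h9
      · rw [h9]; exact hYW hy
      · exact (huniq z h9).1) hclq
    rw [Finset.card_insert_of_notMem] at h6
    · omega
    · intro h
      exact (huniq y h).2.1 hy
  -- numbers
  have hMY' : M * Y.card = Y.card * M := Nat.mul_comm _ _
  have h10 : Y.card * (M / 2) * 2 ≤ Y.card * M := by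
    rw [Nat.mul_assoc]
    exact Nat.mul_le_mul_left _ (Nat.div_mul_le_self M 2)
  have h11 : Y.card * 5 ≤ Y.card * M := Nat.mul_le_mul_left _ hM
  have h12 : 5 ≤ M * a := by nlinarith only [hM, ha1]
  omega


/-- one step of the breadth first search, without lightness -/
theorem step0_eq (G : SimpleGraph V) (W : Finset V) (e : ℕ) (h : ℕ)
    (R U I : Finset V) (hRW : R ⊆ W) (hUW : U ⊆ W) (hRU : Disjoint R U)
    (hU1 : ∀ w ∈ W, w ∉ R → (∃ z ∈ R, G.Adj z w) → w ∈ U)
    (hE : Ear G R U h) (hI : I ⊆ U) (hIi : Ind G I) (hImax : AlLe G U I.card)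
    (he : e ≤ (nbc G W I).card) :
    ∃ R' U' I' : Finset V, R' ⊆ W ∧ U' ⊆ W ∧ Disjoint R' U' ∧
      (∀ w ∈ W, w ∉ R' → (∃ z ∈ R', G.Adj z w) → w ∈ U') ∧ Ear G R' U' (h + 1) ∧
      (∀ w ∈ U', ∃ i ∈ I, G.Adj w i) ∧
      I' ⊆ U' ∧ Ind G I' ∧ AlLe G U' I'.card ∧ R'.card = R.card + I.card ∧ I ⊆ R' ∧
      e ≤ R.card + I.card + U'.card := by
  classical
  set R' := R ∪ I with hR'
  set U' := W.filter (fun w => w ∉ R' ∧ ∃ z ∈ R', G.Adj z w) with hU'
  obtain ⟨I', hI'U, hI'i, hI'max⟩ := exists_max_ind G U'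
  have hR'W : R' ⊆ W := Finset.union_subset hRW (hI.trans hUW)
  have hU'W : U' ⊆ W := Finset.filter_subset _ _
  have hdisj : Disjoint R' U' := by
    rw [Finset.disjoint_left]
    intro w hw hw'
    exact (Finset.mem_filter.1 hw').2.1 hw
  have hRI : Disjoint R I := Finset.disjoint_of_subset_right hI hRU
  have hR'card : R'.card = R.card + I.card := Finset.card_union_of_disjoint hRI
  have hpar : ∀ w ∈ U', ∃ i ∈ I, G.Adj w i := by
    intro w hw
    obtain ⟨hwW, hwR', z, hz, hzw⟩ := Finset.mem_filter.1 hw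
    rcases Finset.mem_union.1 hz with hz | hz
    · by_contra hcon
      push Not at hcon
      have hwR : w ∉ R := fun h => hwR' (Finset.mem_union_left _ h)
      have hwI : w ∉ I := fun h => hwR' (Finset.mem_union_right _ h)
      have hwU : w ∈ U := hU1 w hwW hwR ⟨z, hz, hzw⟩
      have h1 : Ind G (insert w I) := hIi.insert fun i hi hadj => hcon i hi hadj.symm
      have h2 := hImax _ (Finset.insert_subset hwU hI) h1
      rw [Finset.card_insert_of_notMem hwI] at h2
      omega
    · exact ⟨z, hz, hzw.symm⟩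
  have hE' : Ear G R' U' (h + 1) := hE.step hRU hI hpar
  refine ⟨R', U', I', hR'W, hU'W, hdisj, ?_, hE', hpar, hI'U, hI'i, hI'max, hR'card,
    Finset.subset_union_right, ?_⟩
  · intro w hw hwR hz
    exact Finset.mem_filter.2 ⟨hw, hwR, hz⟩
  · -- the neighbourhood of `I`
    have h1 : nbc G W I ⊆ R' ∪ U' := by
      intro v hv
      rw [mem_nbc] at hv
      by_cases hvR : v ∈ R'
      · exact Finset.mem_union_left _ hvR
      · refine Finset.mem_union_right _ (Finset.mem_filter.2 ⟨hv.1, hvR, ?_⟩)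
        rcases hv.2 with h2 | ⟨j, hj, hjv⟩
        · exact absurd (Finset.mem_union_right _ h2) hvR
        · exact ⟨j, Finset.mem_union_right _ hj, hjv⟩
    have h2 := he
    have h3 := (Finset.card_le_card h1).trans (Finset.card_union_le _ _)
    omega

/-- clique lemma for `m = 7` -/
theorem clique6_eq (G : SimpleGraph V) (W : Finset V) (a : ℕ) (ha : a ≤ 6)
    (hno : ¬ HasC G 7) (ha1 : 1 ≤ a) (hdeg : ∀ v ∈ W, 6 ≤ dg G W v)
    (hweak : ∀ J ⊆ W, Ind G J → J.Nonempty → 6 * J.card ≤ (nbc G W J).card) (hal : AlLe G W a)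
    (hW : 6 * a ≤ W.card) : ∃ K ⊆ W, Clq G K ∧ 5 ≤ K.card := by
  classical
  by_contra hcon
  push Not at hcon
  have hcl : ∀ K ⊆ W, Clq G K → K.card ≤ 4 := by
    intro K hK hKc
    have := hcon K hK hKc
    omega
  obtain ⟨r, hr, I0, hI0W, hI0i, hI0r, hI0c⟩ := root_eq5 G W 6 a (by omega) hno hdeg hal ha1 hW
    (fun K hK hKc => by simpa only [Nat.reduceDiv, Nat.reduceAdd] using hcl K hK hKc)
  obtain ⟨R, U, I, hRc, hRW, hUW, hRU, hU1, hE, hI, hIi, hImax, hIc⟩ :=
    bfs_start G W r hr I0 hI0W hI0i hI0r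
  obtain ⟨R1, U1, I1, hRW1, hUW1, hRU1, hU11, hE1, -, hI1, hIi1, hImax1, hRc1, -, hst1⟩ :=
    step0_eq G W _ 0 R U I hRW hUW hRU hU1 hE hI hIi hImax
      (hweak I (hI.trans hUW) hIi (Finset.card_pos.1 (by omega)))
  have hu0 := hal I (hI.trans hUW) hIi
  have hu1 := hal I1 (hI1.trans hUW1) hIi1
  have hL1 := light6 G W R1 U1 1 hno hcl hRW1 hUW1 hRU1 hE1 (by omega) _ hImax1 (by omega)
  obtain ⟨R2, U2, I2, hRW2, hUW2, hRU2, hU12, hE2, -, hI2, hIi2, hImax2, hRc2, -, hst2⟩ :=
    step0_eq G W _ 1 R1 U1 I1 hRW1 hUW1 hRU1 hU11 hE1 hI1 hIi1 hImax1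
      (hweak I1 (hI1.trans hUW1) hIi1 (Finset.card_pos.1 (by omega)))
  have hu2 := hal I2 (hI2.trans hUW2) hIi2
  have hL2 := light6 G W R2 U2 2 hno hcl hRW2 hUW2 hRU2 hE2 (by omega) _ hImax2 (by omega)
  omega

/-- clique lemma for `m = 8` -/
theorem clique7_eq (G : SimpleGraph V) (W : Finset V) (a : ℕ) (ha : a ≤ 7)
    (hno : ¬ HasC G 8) (ha1 : 1 ≤ a) (hdeg : ∀ v ∈ W, 7 ≤ dg G W v)
    (hweak : ∀ J ⊆ W, Ind G J → J.Nonempty → 7 * J.card ≤ (nbc G W J).card) (hal : AlLe G W a)
    (hW : 7 * a ≤ W.card) : ∃ K ⊆ W, Clq G K ∧ 5 ≤ K.card := by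
  classical
  by_contra hcon
  push Not at hcon
  have hcl : ∀ K ⊆ W, Clq G K → K.card ≤ 4 := by
    intro K hK hKc
    have := hcon K hK hKc
    omega
  have light : ∀ (R U : Finset V) (h : ℕ), U ⊆ W → Disjoint R U → Ear G R U h → h ≤ 2 →
      ∀ k, AlLe G U k → U.card ≤ 4 * k := by
    intro R U h hUW hRU hE hh k halU
    by_contra hcon
    obtain ⟨H, hHU, j, hj, h5, h6, h7⟩ := exists_expd G (7 / 2 + 1) U.card U k le_rfl
      halU (by omega)
    exact ear_light G R U h 7 (by omega) hE hRU (by omega) hno H hHU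
      (Finset.card_pos.1 (by omega)) h7 (fun K hK => hcl K (hK.trans (hHU.trans hUW)))
      (fun J hJ hJi => (hal J (hJ.trans (hHU.trans hUW)) hJi).trans ha)
  obtain ⟨r, hr, I0, hI0W, hI0i, hI0r, hI0c⟩ := root_eq5 G W 7 a (by omega) hno hdeg hal ha1 hW
    (fun K hK hKc => by simpa only [Nat.reduceDiv, Nat.reduceAdd] using hcl K hK hKc)
  obtain ⟨R, U, I, hRc, hRW, hUW, hRU, hU1, hE, hI, hIi, hImax, hIc⟩ :=
    bfs_start G W r hr I0 hI0W hI0i hI0r
  have hu0 := hal I (hI.trans hUW) hIi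
  obtain ⟨R1, U1, I1, hRW1, hUW1, hRU1, hU11, hE1, -, hI1, hIi1, hImax1, hRc1, -, hst1⟩ :=
    step0_eq G W _ 0 R U I hRW hUW hRU hU1 hE hI hIi hImax
      (hweak I (hI.trans hUW) hIi (Finset.card_pos.1 (by omega)))
  have hu1 := hal I1 (hI1.trans hUW1) hIi1
  have hL1 := light R1 U1 1 hUW1 hRU1 hE1 (by omega) _ hImax1
  obtain ⟨R2, U2, I2, hRW2, hUW2, hRU2, hU12, hE2, -, hI2, hIi2, hImax2, hRc2, hIR2, hst2⟩ :=
    step0_eq G W _ 1 R1 U1 I1 hRW1 hUW1 hRU1 hU11 hE1 hI1 hIi1 hImax1
      (hweak I1 (hI1.trans hUW1) hIi1 (Finset.card_pos.1 (by omega)))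
  have hu2 := hal I2 (hI2.trans hUW2) hIi2
  have hL2 := light R2 U2 2 hUW2 hRU2 hE2 (by omega) _ hImax2
  -- the remaining vertices
  set X : Finset V := W \ (R2 ∪ U2) with hX
  have hXc : W.card ≤ X.card + (R2.card + U2.card) := by
    have h1 := Finset.card_union_le R2 U2
    have h2 : W.card - (R2 ∪ U2).card ≤ X.card := Finset.le_card_sdiff (R2 ∪ U2) W
    omega
  refine hno (nine_eight G X (by omega) (fun K hK => hcl K (hK.trans Finset.sdiff_subset)) ?_)
  intro J hJ hJi
  have hJX : ∀ w ∈ J, w ∈ W ∧ w ∉ R2 ∧ w ∉ U2 := by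
    intro w hw
    have := hJ hw
    rw [hX, Finset.mem_sdiff, Finset.mem_union, not_or] at this
    exact ⟨this.1, this.2.1, this.2.2⟩
  have hno2 : ∀ w ∈ J, ∀ i ∈ I1, ¬ G.Adj i w := by
    intro w hw i hi hadj
    obtain ⟨h1, h2, h3⟩ := hJX w hw
    exact h3 (hU12 w h1 h2 ⟨i, hIR2 hi, hadj⟩)
  have hdisj : Disjoint J I1 := by
    rw [Finset.disjoint_left]
    intro w hw hw1
    exact (hJX w hw).2.1 (hIR2 hw1)
  have h1 := hal (J ∪ I1) (Finset.union_subset (hJ.trans Finset.sdiff_subset)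
    (hI1.trans hUW1)) (by
      intro p hp q hq hpq
      rcases Finset.mem_union.1 hp with hp | hp <;> rcases Finset.mem_union.1 hq with hq | hq
      · exact hJi p hp q hq hpq
      · exact hno2 p hp q hq hpq.symm
      · exact hno2 q hq p hp hpq
      · exact hIi1 p hp q hq hpq)
  rw [Finset.card_union_of_disjoint hdisj] at h1
  omega




/-- a clique with four vertices in the case of the five-cycle -/
theorem four_end (G : SimpleGraph V) (H K : Finset V) (hno : ¬ HasC G (4 + 1))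
    (h2 : H.card ≤ 16) (hdeg0 : ∀ v ∈ H, 4 ≤ dg G H v)
    (h3 : ∀ v ∈ H, 5 ≤ (nbc G H {v}).card) (hKH : K ⊆ H) (hKc : Clq G K)
    (hK4 : K.card = 4) : False := by
  classical
  -- two further vertices of the clique
  have hrest : ∀ x ∈ K, ∀ x' ∈ K, x ≠ x' → ∃ c ∈ K, ∃ d ∈ K, c ≠ d ∧ c ≠ x ∧ c ≠ x' ∧ d ≠ x ∧
      d ≠ x' := by
    intro x hx x' hx' hne
    have hc : 2 ≤ ((K.erase x).erase x').card := by
      rw [Finset.card_erase_of_mem (Finset.mem_erase.2 ⟨hne.symm, hx'⟩),
        Finset.card_erase_of_mem hx]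
      omega
    obtain ⟨c, hc1, d, hd1, hcd⟩ := Finset.one_lt_card.1 hc
    rw [Finset.mem_erase, Finset.mem_erase] at hc1 hd1
    exact ⟨c, hc1.2.2, d, hd1.2.2, hcd, hc1.2.1, hc1.1, hd1.2.1, hd1.1⟩
  -- no outside paths with one, two or three vertices
  have hP1 : ∀ x ∈ K, ∀ x' ∈ K, x ≠ x' → ∀ o, o ∉ K → G.Adj x o → ¬ G.Adj o x' := by
    intro x hx x' hx' hne o ho h4 h5
    obtain ⟨c, hc, d, hd, hcd, hcx, hcx', hdx, hdx'⟩ := hrest x hx x' hx' hne
    apply hno
    have ho' : ∀ v ∈ K, o ≠ v := fun v hv h => ho (h ▸ hv)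
    refine hasC5 (a := o) (b := x') (c := c) (d := d) (e := x) ?_ h5
      (hKc x' hx' c hc hcx'.symm) (hKc c hc d hd hcd) (hKc d hd x hx hdx) h4
    simp only [List.nodup_cons, List.mem_cons, List.not_mem_nil, or_false, not_or,
      List.nodup_nil, and_true, not_false_eq_true]
    exact ⟨⟨ho' _ hx', ho' _ hc, ho' _ hd, ho' _ hx⟩, ⟨hcx'.symm, hdx'.symm, hne.symm⟩,
      ⟨hcd, hcx⟩, hdx⟩
  have hP2 : ∀ x ∈ K, ∀ x' ∈ K, x ≠ x' → ∀ o p, o ∉ K → p ∉ K → G.Adj x o → G.Adj o p →
      ¬ G.Adj p x' := by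
    intro x hx x' hx' hne o p ho hp h4 h5 h6
    obtain ⟨c, hc, d, hd, hcd, hcx, hcx', hdx, hdx'⟩ := hrest x hx x' hx' hne
    apply hno
    have ho' : ∀ v ∈ K, o ≠ v := fun v hv h => ho (h ▸ hv)
    have hp' : ∀ v ∈ K, p ≠ v := fun v hv h => hp (h ▸ hv)
    refine hasC5 (a := o) (b := p) (c := x') (d := c) (e := x) ?_ h5 h6
      (hKc x' hx' c hc hcx'.symm) (hKc c hc x hx hcx) h4
    simp only [List.nodup_cons, List.mem_cons, List.not_mem_nil, or_false, not_or,
      List.nodup_nil, and_true, not_false_eq_true]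
    exact ⟨⟨h5.ne, ho' _ hx', ho' _ hc, ho' _ hx⟩, ⟨hp' _ hx', hp' _ hc, hp' _ hx⟩,
      ⟨hcx'.symm, hne.symm⟩, hcx⟩
  have hP3 : ∀ x ∈ K, ∀ x' ∈ K, x ≠ x' → ∀ o p q, o ∉ K → p ∉ K → q ∉ K → G.Adj x o →
      G.Adj o p → G.Adj p q → ¬ G.Adj q x' := by
    intro x hx x' hx' hne o p q ho hp hq h4 h5 h6 h7
    have hoq : o ≠ q := fun h => hP1 x hx x' hx' hne o ho h4 (h ▸ h7)
    apply hno
    have ho' : ∀ v ∈ K, o ≠ v := fun v hv h => ho (h ▸ hv)
    have hp' : ∀ v ∈ K, p ≠ v := fun v hv h => hp (h ▸ hv)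
    have hq' : ∀ v ∈ K, q ≠ v := fun v hv h => hq (h ▸ hv)
    refine hasC5 (a := o) (b := p) (c := q) (d := x') (e := x) ?_ h5 h6 h7
      (hKc x' hx' x hx hne.symm) h4
    simp only [List.nodup_cons, List.mem_cons, List.not_mem_nil, or_false, not_or,
      List.nodup_nil, and_true, not_false_eq_true]
    exact ⟨⟨h5.ne, hoq, ho' _ hx', ho' _ hx⟩, ⟨h6.ne, hp' _ hx', hp' _ hx⟩,
      ⟨hq' _ hx', hq' _ hx⟩, hne.symm⟩
  -- outside neighbours
  have hy : ∀ x, ∃ y, x ∈ K → y ∈ H ∧ y ∉ K ∧ G.Adj x y := by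
    intro x
    by_cases hx : x ∈ K
    · have hdeg := hdeg0 x (hKH hx)
      by_contra hcon
      push Not at hcon
      have hsub : H.filter (G.Adj x) ⊆ K.erase x := by
        intro v hv
        rw [Finset.mem_filter] at hv
        rw [Finset.mem_erase]
        refine ⟨hv.2.ne', ?_⟩
        by_contra hvK
        exact (hcon v).2 hv.1 hvK hv.2
      have hle := Finset.card_le_card hsub
      rw [Finset.card_erase_of_mem hx] at hle
      have hdd : dg G H x = (H.filter (G.Adj x)).card := by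
        unfold dg
        congr
      omega
    · exact ⟨x, fun h => absurd h hx⟩
  choose y hy using hy
  set B : V → Finset V := fun x => nbc G (H \ K) {y x} with hB
  have hBc : ∀ x ∈ K, 4 ≤ (B x).card := by
    intro x hx
    obtain ⟨hyH, hyK, hxy⟩ := hy x hx
    have h4 := h3 (y x) hyH
    have h5 : nbc G H {y x} ⊆ insert x (B x) := by
      intro v hv
      rw [mem_nbc] at hv
      rw [Finset.mem_insert]
      by_cases hvK : v ∈ K
      · left
        rcases hv.2 with h6 | ⟨u, hu, h6⟩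
        · rw [Finset.mem_singleton] at h6
          exact absurd (h6 ▸ hvK) hyK
        · rw [Finset.mem_singleton] at hu
          subst hu
          by_contra hvx
          exact hP1 x hx v hvK (fun h => hvx h.symm) (y x) hyK hxy h6
      · right
        rw [hB]
        exact mem_nbc.2 ⟨Finset.mem_sdiff.2 ⟨hv.1, hvK⟩, hv.2⟩
    have h6 := (Finset.card_le_card h5).trans (Finset.card_insert_le _ _)
    omega
  have hBmem : ∀ x ∈ K, ∀ v ∈ B x, v ∈ H ∧ v ∉ K ∧ (v = y x ∨ G.Adj (y x) v) := by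
    intro x hx v hv
    rw [hB] at hv
    obtain ⟨h4, h5⟩ := mem_nbc.1 hv
    refine ⟨(Finset.mem_sdiff.1 h4).1, (Finset.mem_sdiff.1 h4).2, ?_⟩
    rcases h5 with h5 | ⟨u, hu, h5⟩
    · left; exact Finset.mem_singleton.1 h5
    · right; rw [Finset.mem_singleton] at hu; exact hu ▸ h5
  have hdisj : ∀ x ∈ K, ∀ x' ∈ K, x ≠ x' → Disjoint (B x) (B x') := by
    intro x hx x' hx' hne
    rw [Finset.disjoint_left]
    intro v hv hv'
    obtain ⟨hyH, hyK, hxy⟩ := hy x hx
    obtain ⟨hyH', hyK', hxy'⟩ := hy x' hx'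
    obtain ⟨-, hvK, h4⟩ := hBmem x hx v hv
    obtain ⟨-, -, h5⟩ := hBmem x' hx' v hv'
    rcases h4 with h4 | h4 <;> rcases h5 with h5 | h5
    · exact hP1 x hx x' hx' hne v hvK (h4 ▸ hxy) (h5 ▸ hxy'.symm)
    · exact hP2 x hx x' hx' hne v (y x') hvK hyK' (h4 ▸ hxy) h5.symm hxy'.symm
    · exact hP2 x hx x' hx' hne (y x) v hyK hvK hxy h4 (h5 ▸ hxy'.symm)
    · exact hP3 x hx x' hx' hne (y x) v (y x') hyK hvK hyK' hxy h4 h5.symm hxy'.symm
  have hcard : (K.biUnion B).card = ∑ x ∈ K, (B x).card :=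
    Finset.card_biUnion hdisj
  have hsum : 16 ≤ ∑ x ∈ K, (B x).card := by
    have := Finset.card_nsmul_le_sum K (fun x => (B x).card) 4 hBc
    rw [hK4, smul_eq_mul] at this
    omega
  have hd : Disjoint K (K.biUnion B) := by
    rw [Finset.disjoint_left]
    intro v hv hv'
    obtain ⟨x, hx, hvx⟩ := Finset.mem_biUnion.1 hv'
    exact (hBmem x hx v hvx).2.1 hv
  have hsub : K ∪ K.biUnion B ⊆ H := by
    intro v hv
    rcases Finset.mem_union.1 hv with h | h
    · exact hKH h
    · obtain ⟨x, hx, hvx⟩ := Finset.mem_biUnion.1 h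
      exact (hBmem x hx v hvx).1
  have hfin := Finset.card_le_card hsub
  rw [Finset.card_union_of_disjoint hd, hcard] at hfin
  omega


/-- one step of the breadth first search, without lightness -/
theorem raw_eq [DecidableEq V] (G : SimpleGraph V) (W : Finset V) (e : ℕ) (h : ℕ)
    (R U I : Finset V) (hRW : R ⊆ W) (hUW : U ⊆ W) (hRU : Disjoint R U)
    (hU1 : ∀ w ∈ W, w ∉ R → (∃ z ∈ R, G.Adj z w) → w ∈ U)
    (hE : Ear G R U h) (hI : I ⊆ U) (hIi : Ind G I) (hImax : AlLe G U I.card)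
    (he : e ≤ (nbc G W I).card) :
    ∃ U' : Finset V, R ∪ I ⊆ W ∧ U' ⊆ W ∧ Disjoint (R ∪ I) U' ∧
      (∀ w ∈ W, w ∉ R ∪ I → (∃ z ∈ R ∪ I, G.Adj z w) → w ∈ U') ∧ Ear G (R ∪ I) U' (h + 1) ∧
      (∀ w ∈ U', ∃ i ∈ I, G.Adj w i) ∧ (R ∪ I).card = R.card + I.card ∧
      e ≤ R.card + I.card + U'.card := by
  classical
  set U' := W.filter (fun w => w ∉ R ∪ I ∧ ∃ z ∈ R ∪ I, G.Adj z w) with hU'
  have hR'W : R ∪ I ⊆ W := Finset.union_subset hRW (hI.trans hUW)
  have hU'W : U' ⊆ W := Finset.filter_subset _ _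
  have hdisj : Disjoint (R ∪ I) U' := by
    rw [Finset.disjoint_left]
    intro w hw hw'
    exact (Finset.mem_filter.1 hw').2.1 hw
  have hRI : Disjoint R I := Finset.disjoint_of_subset_right hI hRU
  have hR'card : (R ∪ I).card = R.card + I.card := Finset.card_union_of_disjoint hRI
  have hpar : ∀ w ∈ U', ∃ i ∈ I, G.Adj w i := by
    intro w hw
    obtain ⟨hwW, hwR', z, hz, hzw⟩ := Finset.mem_filter.1 hw
    rcases Finset.mem_union.1 hz with hz | hz
    · by_contra hcon
      push Not at hcon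
      have hwR : w ∉ R := fun h => hwR' (Finset.mem_union_left _ h)
      have hwI : w ∉ I := fun h => hwR' (Finset.mem_union_right _ h)
      have hwU : w ∈ U := hU1 w hwW hwR ⟨z, hz, hzw⟩
      have h1 : Ind G (insert w I) := hIi.insert fun i hi hadj => hcon i hi hadj.symm
      have h2 := hImax _ (Finset.insert_subset hwU hI) h1
      rw [Finset.card_insert_of_notMem hwI] at h2
      omega
    · exact ⟨z, hz, hzw.symm⟩
  have hE' : Ear G (R ∪ I) U' (h + 1) := hE.step hRU hI hpar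
  refine ⟨U', hR'W, hU'W, hdisj, ?_, hE', hpar, hR'card, ?_⟩
  · intro w hw hwR hz
    exact Finset.mem_filter.2 ⟨hw, hwR, hz⟩
  · -- the neighbourhood of `I`
    have h1 : nbc G W I ⊆ (R ∪ I) ∪ U' := by
      intro v hv
      rw [mem_nbc] at hv
      by_cases hvR : v ∈ R ∪ I
      · exact Finset.mem_union_left _ hvR
      · refine Finset.mem_union_right _ (Finset.mem_filter.2 ⟨hv.1, hvR, ?_⟩)
        rcases hv.2 with h2 | ⟨j, hj, hjv⟩
        · exact absurd (Finset.mem_union_right _ h2) hvR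
        · exact ⟨j, Finset.mem_union_right _ hj, hjv⟩
    have h2 := he
    have h3 := (Finset.card_le_card h1).trans (Finset.card_union_le _ _)
    omega


/-- the first two levels -/
theorem start_eq [DecidableEq V] (G : SimpleGraph V) (W : Finset V) (r : V) (hr : r ∈ W)
    (I0 : Finset V) (hI0W : I0 ⊆ W) (hI0i : Ind G I0) (hI0r : ∀ w ∈ I0, G.Adj r w)
    (hI0c : 3 ≤ I0.card) :
    ∃ (I U : Finset V), I ⊆ W ∧ Ind G I ∧ (∀ i ∈ I, G.Adj r i) ∧
      3 ≤ I.card ∧ U ⊆ W ∧ Disjoint ({r} ∪ I) U ∧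
      (∀ w ∈ U, ∃ i ∈ I, G.Adj w i) ∧ (nbc G W I).card ≤ 1 + I.card + U.card := by
  classical
  obtain ⟨I, hIU, hIi, hImax⟩ := exists_max_ind G (W.filter (G.Adj r))
  have h3 : 3 ≤ I.card := by
    have := hImax I0 (fun w hw => Finset.mem_filter.2 ⟨hI0W hw, hI0r w hw⟩) hI0i
    omega
  have hIW : I ⊆ W := hIU.trans (Finset.filter_subset _ _)
  obtain ⟨U, h4, h5, h6, h7, h8, h9, h10, h11⟩ := raw_eq G W _ 0 {r} (W.filter (G.Adj r)) I
    (by simpa using hr) (Finset.filter_subset _ _) (by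
      rw [Finset.disjoint_left]
      intro w hw hw'
      rw [Finset.mem_singleton.1 hw] at hw'
      exact G.loopless.irrefl _ (Finset.mem_filter.1 hw').2) (by
      rintro w hw - ⟨z, hz, hzw⟩
      rw [Finset.mem_singleton.1 hz] at hzw
      exact Finset.mem_filter.2 ⟨hw, hzw⟩)
    (Ear.zero G r _ (fun w hw => (Finset.mem_filter.1 hw).2)) hIU hIi hImax
    le_rfl
  exact ⟨I, U, hIW, hIi, fun i hi => (Finset.mem_filter.1 (hIU hi)).2, h3, h5, h6, h9,
    by rw [Finset.card_singleton] at h11; exact h11⟩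

/-- a root forces a clique with four vertices, for cycles of length five and six -/
theorem clique45_eq (G : SimpleGraph V) (W : Finset V) (M a : ℕ) (hM : M = 4 ∨ M = 5)
    (ha : a ≤ M) (hno : ¬ HasC G (M + 1))
    (hweak : ∀ J ⊆ W, Ind G J → J.Nonempty → M * J.card ≤ (nbc G W J).card)
    (hal : AlLe G W a) (r : V) (hr : r ∈ W) (I0 : Finset V) (hI0W : I0 ⊆ W) (hI0i : Ind G I0)
    (hI0r : ∀ w ∈ I0, G.Adj r w) (hI0c : 3 ≤ I0.card)
    (hstr : M = 4 → ∀ J ⊆ W, Ind G J → J.Nonempty → J.card < a →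
      M * J.card + 1 ≤ (nbc G W J).card) :
    ∃ K ⊆ W, Clq G K ∧ 4 ≤ K.card := by
  classical
  by_contra hcon
  push Not at hcon
  have hcl : ∀ K ⊆ W, Clq G K → K.card ≤ 3 := by
    intro K hK hKc
    have := hcon K hK hKc
    omega
  obtain ⟨I, U, hIW, hIi, hIr, hI3, hUW, hRU, hpar, hstep⟩ :=
    start_eq G W r hr I0 hI0W hI0i hI0r hI0c
  obtain ⟨J, hJU, hJi, hJmax⟩ := exists_max_ind G U
  have hJa : J.card ≤ a := hal J (hJU.trans hUW) hJi
  have hIa : I.card ≤ a := hal I hIW hIi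
  have hl : U.card ≤ 2 * J.card := SC.light_of G 2 U J.card hJmax fun H hH hHne hHe => by
    refine SC.ear_light45 G W I U r M hM hIW hUW hIr ?_ ?_ hpar hno hcl H hH hHne hHe
    · intro h
      exact Finset.disjoint_left.1 hRU (Finset.mem_union_left _ (Finset.mem_singleton_self r)) h
    · exact Finset.disjoint_of_subset_left Finset.subset_union_right hRU
  have hw := hweak I hIW hIi (Finset.card_pos.1 (by omega))
  rcases hM with rfl | rfl
  · rcases Nat.lt_or_ge I.card a with h | h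
    · have h1 := hstr rfl I hIW hIi (Finset.card_pos.1 (by omega)) h
      omega
    · omega
  · omega


theorem hasC5' {G : SimpleGraph V} {a b c d e : V} (hnd : [a, b, c, d, e].Nodup)
    (h1 : G.Adj a b) (h2 : G.Adj b c) (h3 : G.Adj c d) (h4 : G.Adj d e) (h5 : G.Adj e a) :
    HasC G (4 + 1) := hasC5 hnd h1 h2 h3 h4 h5

/-- no root: the five-cycle -/
theorem no_root4 (G : SimpleGraph V) (W : Finset V) (a : ℕ) (ha : a ≤ 4)
    (hno : ¬ HasC G (4 + 1)) (hdeg : ∀ v ∈ W, 4 ≤ dg G W v) (hal : AlLe G W a)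
    (hne : W.Nonempty) (hcl : ∀ K ⊆ W, Clq G K → K.card ≤ 3)
    (hroot : ∀ r ∈ W, ∀ I ⊆ W, Ind G I → (∀ w ∈ I, G.Adj r w) → I.card ≤ 2) : False := by
  classical
  set N : V → Finset V := fun v => W.filter (G.Adj v) with hN
  have hmem : ∀ v w, w ∈ N v ↔ w ∈ W ∧ G.Adj v w := fun v w => Finset.mem_filter
  have hN4 : ∀ v ∈ W, (N v).card = 4 := by
    intro v hv
    have h1 := hdeg v hv
    rw [dg_eq_filter] at h1
    have h2 := nbhd_light G W 4 (by norm_num) hno (fun K hK hKc => hcl K hK hKc) v hv (N v)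
      (Finset.filter_subset _ _) (fun w hw => ((hmem v w).1 hw).2) 2 (fun I hI hIi =>
        hroot v hv I (hI.trans (Finset.filter_subset _ _)) hIi
          (fun w hw => ((hmem v w).1 (hI hw)).2))
    have h3 : (N v).card = (W.filter (G.Adj v)).card := rfl
    omega
  -- no triangle in a neighbourhood
  have hK4 : ∀ v ∈ W, ∀ x ∈ N v, ∀ y ∈ N v, ∀ z ∈ N v, G.Adj x y → G.Adj y z → ¬ G.Adj x z := by
    intro v hv x hx y hy z hz hxy hyz hxz
    obtain ⟨hxW, hvx⟩ := (hmem v x).1 hx
    obtain ⟨hyW, hvy⟩ := (hmem v y).1 hy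
    obtain ⟨hzW, hvz⟩ := (hmem v z).1 hz
    have h1 := hcl {v, x, y, z} (by
      intro w hw
      simp only [Finset.mem_insert, Finset.mem_singleton] at hw
      rcases hw with rfl | rfl | rfl | rfl <;> assumption) (by
      intro u hu w hw huw
      simp only [Finset.mem_insert, Finset.mem_singleton] at hu hw
      rcases hu with rfl | rfl | rfl | rfl <;> rcases hw with rfl | rfl | rfl | rfl <;>
        first
          | exact absurd rfl huw
          | assumption
          | (apply SimpleGraph.Adj.symm; assumption))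
    have h2 : ({v, x, y, z} : Finset V).card = 4 := by
      rw [Finset.card_eq_succ]
      refine ⟨v, {x, y, z}, ?_, rfl, ?_⟩
      · simp only [Finset.mem_insert, Finset.mem_singleton, not_or]
        exact ⟨hvx.ne, hvy.ne, hvz.ne⟩
      · exact Finset.card_eq_three.2 ⟨x, y, z, hxy.ne, hxz.ne, hyz.ne, rfl⟩
    omega
  -- no path with four vertices in a neighbourhood
  have hP4 : ∀ v ∈ W, ∀ x ∈ N v, ∀ y ∈ N v, ∀ z ∈ N v, ∀ t ∈ N v, [x, y, z, t].Nodup →
      G.Adj x y → G.Adj y z → ¬ G.Adj z t := by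
    intro v hv x hx y hy z hz t ht hnd hxy hyz hzt
    obtain ⟨hxW, hvx⟩ := (hmem v x).1 hx
    obtain ⟨hyW, hvy⟩ := (hmem v y).1 hy
    obtain ⟨hzW, hvz⟩ := (hmem v z).1 hz
    obtain ⟨htW, hvt⟩ := (hmem v t).1 ht
    apply hno
    refine hasC5' (a := v) (b := x) (c := y) (d := z) (e := t) ?_ hvx hxy hyz hzt hvt.symm
    rw [List.nodup_cons]
    refine ⟨?_, hnd⟩
    simp only [List.mem_cons, List.not_mem_nil, or_false, not_or]
    exact ⟨hvx.ne, hvy.ne, hvz.ne, hvt.ne⟩
  -- every vertex of a neighbourhood has at most one neighbour there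
  have hle1 : ∀ v ∈ W, ∀ x ∈ N v, ∀ y ∈ N v, ∀ z ∈ N v, G.Adj x y → G.Adj x z → y = z := by
    intro v hv x hx y hy z hz hxy hxz
    by_contra hyz
    -- the fourth vertex
    have h1 : (((N v).erase x).erase y).card = 2 := by
      rw [Finset.card_erase_of_mem (Finset.mem_erase.2 ⟨hxy.ne', hy⟩),
        Finset.card_erase_of_mem hx, hN4 v hv]
    have hz1 : z ∈ ((N v).erase x).erase y :=
      Finset.mem_erase.2 ⟨fun h => hyz h.symm, Finset.mem_erase.2 ⟨hxz.ne', hz⟩⟩
    obtain ⟨t, ht, htz⟩ := Finset.exists_mem_ne (s := ((N v).erase x).erase y) (by omega) z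
    rw [Finset.mem_erase, Finset.mem_erase] at ht
    obtain ⟨hty, htx, ht⟩ := ht
    have hyz' : ¬ G.Adj y z := fun h => hK4 v hv x hx y hy z hz hxy h hxz
    have h2 : ¬ Ind G {y, z, t} := by
      intro h
      have h3 := hroot v hv {y, z, t} (by
        intro w hw
        simp only [Finset.mem_insert, Finset.mem_singleton] at hw
        rcases hw with rfl | rfl | rfl
        · exact ((hmem v _).1 hy).1
        · exact ((hmem v _).1 hz).1
        · exact ((hmem v _).1 ht).1) h (by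
        intro w hw
        simp only [Finset.mem_insert, Finset.mem_singleton] at hw
        rcases hw with rfl | rfl | rfl
        · exact ((hmem v _).1 hy).2
        · exact ((hmem v _).1 hz).2
        · exact ((hmem v _).1 ht).2)
      rw [Finset.card_eq_three.2 ⟨y, z, t, hyz, fun h => hty h.symm, fun h => htz h.symm, rfl⟩]
        at h3
      omega
    have h4 : G.Adj y t ∨ G.Adj z t := by
      by_contra hcon
      push Not at hcon
      apply h2
      intro u hu w hw huw
      simp only [Finset.mem_insert, Finset.mem_singleton] at hu hw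
      rcases hu with rfl | rfl | rfl <;> rcases hw with rfl | rfl | rfl
      · exact G.loopless.irrefl _ huw
      · exact hyz' huw
      · exact hcon.1 huw
      · exact hyz' huw.symm
      · exact G.loopless.irrefl _ huw
      · exact hcon.2 huw
      · exact hcon.1 huw.symm
      · exact hcon.2 huw.symm
      · exact G.loopless.irrefl _ huw
    rcases h4 with h4 | h4
    · refine hP4 v hv z hz x hx y hy t ht ?_ hxz.symm hxy h4
      simp only [List.nodup_cons, List.mem_cons, List.not_mem_nil, or_false, not_or,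
        List.nodup_nil, and_true, not_false_eq_true]
      exact ⟨⟨hxz.ne', fun h => hyz h.symm, fun h => htz h.symm⟩, ⟨hxy.ne, fun h => htx h.symm⟩,
        fun h => hty h.symm⟩
    · refine hP4 v hv y hy x hx z hz t ht ?_ hxy.symm hxz h4
      simp only [List.nodup_cons, List.mem_cons, List.not_mem_nil, or_false, not_or,
        List.nodup_nil, and_true, not_false_eq_true]
      exact ⟨⟨hxy.ne', hyz, fun h => hty h.symm⟩, ⟨hxz.ne, fun h => htx h.symm⟩,
        fun h => htz h.symm⟩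
  -- and at least one
  have hge1 : ∀ v ∈ W, ∀ x ∈ N v, ∃ y ∈ N v, G.Adj x y := by
    intro v hv x hx
    by_contra hcon
    push Not at hcon
    obtain ⟨y, z, t, hyz, hyt, hzt, hEq⟩ := Finset.card_eq_three.1
      (show ((N v).erase x).card = 3 by rw [Finset.card_erase_of_mem hx, hN4 v hv])
    have hin : ∀ w ∈ ({y, z, t} : Finset V), w ≠ x ∧ w ∈ N v := by
      intro w hw
      rw [← hEq] at hw
      exact Finset.mem_erase.1 hw
    have hy := hin y (by simp)
    have hz := hin z (by simp)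
    have ht := hin t (by simp)
    have key : ∀ p ∈ N v, ∀ q ∈ N v, p ≠ x → q ≠ x → p ≠ q → G.Adj p q := by
      intro p hp q hq hpx hqx hpq
      by_contra hadj
      have h3 := hroot v hv {x, p, q} (by
        intro w hw
        simp only [Finset.mem_insert, Finset.mem_singleton] at hw
        rcases hw with rfl | rfl | rfl
        · exact ((hmem v _).1 hx).1
        · exact ((hmem v _).1 hp).1
        · exact ((hmem v _).1 hq).1) (by
        intro u hu w hw huw
        simp only [Finset.mem_insert, Finset.mem_singleton] at hu hw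
        rcases hu with rfl | rfl | rfl <;> rcases hw with rfl | rfl | rfl
        · exact G.loopless.irrefl _ huw
        · exact hcon _ hp huw
        · exact hcon _ hq huw
        · exact hcon _ hp huw.symm
        · exact G.loopless.irrefl _ huw
        · exact hadj huw
        · exact hcon _ hq huw.symm
        · exact hadj huw.symm
        · exact G.loopless.irrefl _ huw) (by
        intro w hw
        simp only [Finset.mem_insert, Finset.mem_singleton] at hw
        rcases hw with rfl | rfl | rfl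
        · exact ((hmem v _).1 hx).2
        · exact ((hmem v _).1 hp).2
        · exact ((hmem v _).1 hq).2)
      rw [Finset.card_eq_three.2 ⟨x, p, q, hpx.symm, hqx.symm, hpq, rfl⟩] at h3
      omega
    exact hK4 v hv y hy.2 z hz.2 t ht.2 (key y hy.2 z hz.2 hy.1 hz.1 hyz)
      (key z hz.2 t ht.2 hz.1 ht.1 hzt) (key y hy.2 t ht.2 hy.1 ht.1 hyt)
  obtain ⟨r, hr⟩ := hne
  -- a second neighbour through every neighbour
  have hz : ∀ x, ∃ z, x ∈ N r → z ∈ N x ∧ z ≠ r ∧ ¬ G.Adj r z := by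
    intro x
    by_cases hx : x ∈ N r
    · obtain ⟨hxW, hrx⟩ := (hmem r x).1 hx
      obtain ⟨x', hx', hxx'⟩ := hge1 r hr x hx
      have h1 : 2 ≤ (((N x).erase r).erase x').card := by
        have h2 := Finset.card_erase_of_mem ((hmem x r).2 ⟨hr, hrx.symm⟩)
        have h3 : ((N x).erase r).card - 1 ≤ (((N x).erase r).erase x').card :=
          Finset.pred_card_le_card_erase
        have h4 := hN4 x hxW
        omega
      obtain ⟨z, hz⟩ := Finset.card_pos.1 (show 0 < (((N x).erase r).erase x').card by omega)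
      rw [Finset.mem_erase, Finset.mem_erase] at hz
      refine ⟨z, fun _ => ⟨hz.2.2, hz.2.1, ?_⟩⟩
      intro hrz
      exact hz.1 (hle1 r hr x hx z ((hmem r z).2 ⟨((hmem x z).1 hz.2.2).1, hrz⟩) x' hx'
        ((hmem x z).1 hz.2.2).2 hxx')
    · exact ⟨x, fun h => absurd h hx⟩
  choose z hz using hz
  have hzW : ∀ x ∈ N r, z x ∈ W ∧ G.Adj x (z x) ∧ z x ≠ r ∧ ¬ G.Adj r (z x) := by
    intro x hx
    obtain ⟨h1, h2, h3⟩ := hz x hx
    exact ⟨((hmem x _).1 h1).1, ((hmem x _).1 h1).2, h2, h3⟩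
  -- different
  have hdiff : ∀ x ∈ N r, ∀ y ∈ N r, x ≠ y → z x ≠ z y := by
    intro x hx y hy hxy heq
    obtain ⟨hxW, hrx⟩ := (hmem r x).1 hx
    obtain ⟨hyW, hry⟩ := (hmem r y).1 hy
    obtain ⟨hzxW, hxz, hzr, hrz⟩ := hzW x hx
    obtain ⟨-, hyz, -, -⟩ := hzW y hy
    rw [← heq] at hyz
    by_cases hadj : G.Adj x y
    · -- in `N x` the vertex `y` has the neighbours `r` and `z x`
      have := hle1 x hxW y ((hmem x y).2 ⟨hyW, hadj⟩) r ((hmem x r).2 ⟨hr, hrx.symm⟩)
        (z x) ((hmem x _).2 ⟨hzxW, hxz⟩) hry.symm hyz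
      exact hzr this.symm
    · obtain ⟨x', hx', hxx'⟩ := hge1 r hr x hx
      obtain ⟨hx'W, hrx'⟩ := (hmem r x').1 hx'
      have h1 : x' ≠ y := by rintro rfl; exact hadj hxx'
      have h2 : x' ≠ z x := by intro h; rw [h] at hrx'; exact hrz hrx'
      apply hno
      refine hasC5' (a := r) (b := x') (c := x) (d := z x) (e := y) ?_ hrx' hxx'.symm hxz
        hyz.symm hry.symm
      simp only [List.nodup_cons, List.mem_cons, List.not_mem_nil, or_false, not_or,
        List.nodup_nil, and_true, not_false_eq_true]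
      exact ⟨⟨hrx'.ne, hrx.ne, hzr.symm, hry.ne⟩, ⟨hxx'.ne', h2, h1⟩, ⟨hxz.ne, hxy⟩, hyz.ne'⟩
  -- not adjacent
  have hnadj : ∀ x ∈ N r, ∀ y ∈ N r, x ≠ y → ¬ G.Adj (z x) (z y) := by
    intro x hx y hy hxy hadj
    obtain ⟨hxW, hrx⟩ := (hmem r x).1 hx
    obtain ⟨hyW, hry⟩ := (hmem r y).1 hy
    obtain ⟨hzxW, hxz, hzr, hrz⟩ := hzW x hx
    obtain ⟨hzyW, hyz, hzr', hrz'⟩ := hzW y hy
    have h1 : x ≠ z y := by intro h; rw [← h] at hrz'; exact hrz' hrx
    have h2 : z x ≠ y := by intro h; rw [h] at hrz; exact hrz hry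
    apply hno
    refine hasC5' (a := r) (b := x) (c := z x) (d := z y) (e := y) ?_ hrx hxz hadj hyz.symm
      hry.symm
    simp only [List.nodup_cons, List.mem_cons, List.not_mem_nil, or_false, not_or,
      List.nodup_nil, and_true, not_false_eq_true]
    exact ⟨⟨hrx.ne, hzr.symm, hzr'.symm, hry.ne⟩, ⟨hxz.ne, h1, hxy⟩, ⟨hadj.ne, h2⟩, hyz.ne'⟩
  -- five independent vertices
  have hrn : r ∉ (N r).image z := by
    intro h
    obtain ⟨x, hx, h⟩ := Finset.mem_image.1 h
    exact (hzW x hx).2.2.1 h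
  have h5 := hal (insert r ((N r).image z)) (by
    intro w hw
    rcases Finset.mem_insert.1 hw with rfl | hw
    · exact hr
    · obtain ⟨x, hx, rfl⟩ := Finset.mem_image.1 hw
      exact (hzW x hx).1) (by
    refine Ind.insert ?_ ?_
    · intro u hu w hw huw
      obtain ⟨x, hx, rfl⟩ := Finset.mem_image.1 hu
      obtain ⟨y, hy, rfl⟩ := Finset.mem_image.1 hw
      rcases eq_or_ne x y with rfl | hxy
      · exact G.loopless.irrefl _ huw
      · exact hnadj x hx y hy hxy huw
    · intro w hw hadj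
      obtain ⟨x, hx, rfl⟩ := Finset.mem_image.1 hw
      exact (hzW x hx).2.2.2 hadj.symm)
  rw [Finset.card_insert_of_notMem hrn, Finset.card_image_of_injOn (by
    intro x hx y hy h
    by_contra hxy
    exact hdiff x hx y hy hxy h), hN4 r hr] at h5
  omega


theorem exists_max_clq (G : SimpleGraph V) (W K0 : Finset V) (h0 : K0 ⊆ W) (hc : Clq G K0) :
    ∃ K ⊆ W, Clq G K ∧ K0.card ≤ K.card ∧ ∀ K' ⊆ W, Clq G K' → K'.card ≤ K.card := by
  classical
  obtain ⟨K, hK, hKmax⟩ := Finset.exists_max_image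
    (W.powerset.filter (fun K => Clq G K)) Finset.card
    ⟨K0, by simp [h0, hc]⟩
  rw [Finset.mem_filter, Finset.mem_powerset] at hK
  exact ⟨K, hK.1, hK.2, hKmax K0 (by simp [h0, hc]), fun K' hK' hc' => hKmax K' (by simp [hK', hc'])⟩

/-- There is no graph without tight independent sets in the case of equality. -/
theorem caseB (G : SimpleGraph V) (W : Finset V) (M k : ℕ) (hM : 4 ≤ M) (hk2 : 2 ≤ k)
    (hk : k ≤ M) (hno : ¬ HasC G (M + 1)) (hdeg : ∀ v ∈ W, M ≤ dg G W v)
    (hexp : ∀ J ⊆ W, Ind G J → J.Nonempty → J.card < k → M * J.card + 1 ≤ (nbc G W J).card)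
    (hweak : ∀ J ⊆ W, Ind G J → J.Nonempty → M * J.card ≤ (nbc G W J).card)
    (hal : AlLe G W k) (hW : W.card = M * k) : False := by
  classical
  have hWpos : 0 < W.card := by
    rw [hW]
    exact Nat.mul_pos (by omega) (by omega)
  have hfin : (∃ J ⊆ W, Ind G J ∧ M + 1 ≤ J.card) → False := by
    rintro ⟨J, hJ, hJi, hJc⟩
    have := hal J hJ hJi
    omega
  rcases Nat.lt_or_ge M 8 with h8 | h8
  · obtain rfl | rfl | rfl | rfl : M = 4 ∨ M = 5 ∨ M = 6 ∨ M = 7 := by omega
    · -- cycles of length five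
      have hK : ∃ K ⊆ W, Clq G K ∧ 4 ≤ K.card := by
        by_contra hcon
        push Not at hcon
        have hcl : ∀ K ⊆ W, Clq G K → K.card ≤ 3 := by
          intro K hK hKc
          have := hcon K hK hKc
          omega
        by_cases hroot : ∃ r ∈ W, ∃ I ⊆ W, Ind G I ∧ (∀ w ∈ I, G.Adj r w) ∧ 3 ≤ I.card
        · obtain ⟨r, hr, I, hI, hIi, hIr, hIc⟩ := hroot
          obtain ⟨K, hK, hKc, hK4⟩ := clique45_eq G W 4 k (Or.inl rfl) hk hno hweak hal r hr I hI
            hIi hIr hIc (fun _ => hexp)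
          have := hcl K hK hKc
          omega
        · push Not at hroot
          exact no_root4 G W k hk hno hdeg hal (Finset.card_pos.1 hWpos) hcl
            (fun r hr I hI hIi hIr => by have := hroot r hr I hI hIi hIr; omega)
      obtain ⟨K0, hK0, hK0c, hK04⟩ := hK
      obtain ⟨K, hKK, hKc⟩ := Finset.exists_subset_card_eq hK04
      refine four_end G W K hno (by rw [hW]; omega) hdeg ?_ (hKK.trans hK0)
        (fun u hu v hv => hK0c u (hKK hu) v (hKK hv)) hKc
      intro v hv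
      have := hexp {v} (by simpa using hv) (by
        intro a ha b hb
        simp only [Finset.mem_singleton] at ha hb
        rw [ha, hb]
        exact G.loopless.irrefl _) (by simp) (by rw [Finset.card_singleton]; omega)
      simpa using this
    · -- cycles of length six
      have hK : ∃ K ⊆ W, Clq G K ∧ 4 ≤ K.card := by
        by_contra hcon
        push Not at hcon
        have hcl : ∀ K ⊆ W, Clq G K → K.card ≤ 5 / 2 + 1 := by
          intro K hK hKc
          have := hcon K hK hKc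
          omega
        obtain ⟨r, hr, I, hI, hIi, hIr, hIc⟩ := root_eq5 G W 5 k le_rfl hno hdeg hal (by omega)
          hW.ge hcl
        obtain ⟨K, hK, hKc, hK4⟩ := clique45_eq G W 5 k (Or.inr rfl) hk hno hweak hal r hr I hI
          hIi hIr hIc (fun h => absurd h (by norm_num))
        have := hcl K hK hKc
        omega
      obtain ⟨K0, hK0, hc0, hk0⟩ := hK
      obtain ⟨K, hK, hKc, hle, hmax⟩ := exists_max_clq G W K0 hK0 hc0
      apply hfin
      rcases Nat.eq_or_lt_of_le (hk0.trans hle) with h4 | h4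
      · exact SC.doubling4 G W K hno hdeg hK hKc hmax h4.symm
      · exact doubling5 G W K 5 le_rfl hno hdeg hK hKc hmax (by omega) h4
    · -- cycles of length seven
      obtain ⟨K0, hK0, hc0, hk0⟩ := clique6_eq G W k hk hno (by omega) hdeg hweak hal hW.ge
      obtain ⟨K, hK, hKc, hle, hmax⟩ := exists_max_clq G W K0 hK0 hc0
      exact hfin (doubling5 G W K 6 (by omega) hno hdeg hK hKc hmax (by omega) (by omega))
    · -- cycles of length eight
      obtain ⟨K0, hK0, hc0, hk0⟩ := clique7_eq G W k hk hno (by omega) hdeg hweak hal hW.ge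
      obtain ⟨K, hK, hKc, hle, hmax⟩ := exists_max_clq G W K0 hK0 hc0
      exact hfin (doubling5 G W K 7 (by omega) hno hdeg hK hKc hmax (by omega) (by omega))
  · obtain ⟨K0, hK0, hc0, hk0⟩ := clique_eq G W M k h8 hk (by omega) hno hdeg hexp hweak hal hW.ge
    obtain ⟨K, hK, hKc, hle, hmax⟩ := exists_max_clq G W K0 hK0 hc0
    exact hfin (doubling G W K M (by omega) hno hdeg hK hKc hmax (by omega))

end Vale.Agent.P048.H448
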