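import Vale.Agent.P048.H448.Struct

set_option linter.all false
set_option autoImplicit false

/-!
The star-critical Ramsey number of the pair (cycle, complete graph).
-/

namespace Vale.Agent.P048.H448

open Finset Vale.Agent.P048

variable {V : Type*}

/-- transversals through a given vertex, avoiding few vertices -/
theorem transv (G : SimpleGraph V) [DecidableEq V] (M : ℕ) (hM : 2 ≤ M) (hno : ¬ HasC G (M + 1))
    (v : V) (S : Finset V) : ∀ (f : ℕ) (F : Finset (Finset V)), F.card = f →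
    (∀ Q ∈ F, Clq G Q ∧ Q.card = M ∧ v ∉ Q) →
    (∀ Q ∈ F, ∀ Q' ∈ F, Q ≠ Q' → Disjoint Q Q') → F.card + 1 ≤ M →
    ∑ Q ∈ F, (Q \ S).card + 2 ≤ M →
    ∃ A : Finset V, v ∈ A ∧ Ind G A ∧ A.card = F.card + 1 ∧
      (∀ x ∈ A, x = v ∨ (x ∈ S ∧ ∃ Q ∈ F, x ∈ Q)) ∧
      ∀ Q ∈ F, ∃ a ∈ Q, a ∈ A ∧ ∀ b ∈ A, b ∈ Q → b = a := by
  classical
  intro f
  induction f with
  | zero =>
    intro F hF _ _ _ _
    rw [Finset.card_eq_zero] at hF
    subst hF
    refine ⟨{v}, by simp, ?_, by simp, fun x hx => Or.inl (by simpa using hx), by simp⟩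
    intro a ha b hb
    simp only [Finset.mem_singleton] at ha hb
    rw [ha, hb]
    exact G.loopless.irrefl _
  | succ f ih =>
    intro F hF h1 h2 h3 h4
    obtain ⟨Q, hQF, hQmin⟩ := Finset.exists_min_image F (fun Q => (Q \ S).card)
      (Finset.card_pos.1 (by omega))
    have hsum : (Q \ S).card + ∑ R ∈ F.erase Q, (R \ S).card = ∑ R ∈ F, (R \ S).card :=
      Finset.add_sum_erase F (fun R => (R \ S).card) hQF
    have hEc : (F.erase Q).card = f := by rw [Finset.card_erase_of_mem hQF]; omega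
    obtain ⟨A, hvA, hA, hAc, hA1, hA2⟩ := ih (F.erase Q) hEc
      (fun R hR => h1 R (Finset.mem_of_mem_erase hR))
      (fun R hR R' hR' => h2 R (Finset.mem_of_mem_erase hR) R' (Finset.mem_of_mem_erase hR'))
      (by omega) (by omega)
    obtain ⟨hQ, hQc, hvQ⟩ := h1 Q hQF
    have hdis : Disjoint A Q := by
      rw [Finset.disjoint_left]
      intro x hx hxQ
      rcases hA1 x hx with h | ⟨_, R, hR, hxR⟩
      · exact hvQ (h ▸ hxQ)
      · exact Finset.disjoint_left.1 (h2 R (Finset.mem_of_mem_erase hR) Q hQF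
          (Finset.ne_of_mem_erase hR)) hxR hxQ
    -- the minimum is small
    have hmin : F.card * (Q \ S).card ≤ ∑ R ∈ F, (R \ S).card := by
      rw [← smul_eq_mul, ← Finset.sum_const]
      exact Finset.sum_le_sum hQmin
    have hsmall : (Q \ S).card + F.card + 1 ≤ M := by
      by_contra hcon
      push Not at hcon
      have h5 : M - F.card ≤ (Q \ S).card := by omega
      have h6 : F.card * (M - F.card) ≤ F.card * (Q \ S).card := Nat.mul_le_mul_left _ h5
      obtain ⟨d, hd⟩ := Nat.exists_eq_add_of_le h3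
      have h7 : M - F.card = d + 1 := by omega
      rw [h7] at h6
      have h8 : F.card * (d + 1) + 2 ≤ F.card + 1 + d := by omega
      have h9 : 1 ≤ F.card := by omega
      have h10 : F.card * (d + 1) = F.card * d + F.card := by ring
      have h11 : 1 * d ≤ F.card * d := Nat.mul_le_mul_right _ h9
      omega
    have hfree : ∃ q ∈ Q, q ∈ S ∧ ∀ x ∈ A, ¬ G.Adj x q := by
      by_contra hcon
      push Not at hcon
      -- every vertex of `Q ∩ S` is blocked
      choose! φ hφ using hcon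
      have hinj : Set.InjOn φ (Q ∩ S : Finset V) := by
        intro q hq q' hq' h
        by_contra hne
        rw [Finset.mem_coe, Finset.mem_inter] at hq hq'
        have h5 := hφ q hq.1 hq.2
        have h6 := hφ q' hq'.1 hq'.2
        rw [← h] at h6
        exact hno (two_nbrs G Q M hM hQ hQc (Finset.disjoint_left.1 hdis h5.1) hq.1 hq'.1 hne
          h5.2 h6.2)
      have h5 : (Q ∩ S).card ≤ A.card := by
        refine Finset.card_le_card_of_injOn φ ?_ hinj
        intro q hq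
        rw [Finset.mem_coe, Finset.mem_inter] at hq
        exact (hφ q hq.1 hq.2).1
      have h6 := Finset.card_inter_add_card_sdiff Q S
      omega
    obtain ⟨q, hq, hqS, hqA⟩ := hfree
    have hqnA : q ∉ A := fun h => Finset.disjoint_left.1 hdis h hq
    refine ⟨insert q A, Finset.mem_insert_of_mem hvA, hA.insert (fun a ha h => hqA a ha h),
      ?_, ?_, ?_⟩
    · rw [Finset.card_insert_of_notMem hqnA]
      omega
    · intro x hx
      rcases Finset.mem_insert.1 hx with rfl | hx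
      · exact Or.inr ⟨hqS, Q, hQF, hq⟩
      · rcases hA1 x hx with h | ⟨h, R, hR, hxR⟩
        · exact Or.inl h
        · exact Or.inr ⟨h, R, Finset.mem_of_mem_erase hR, hxR⟩
    · intro R hR
      rcases eq_or_ne R Q with rfl | hRQ
      · refine ⟨q, hq, Finset.mem_insert_self _ _, ?_⟩
        intro b hb hbR
        rcases Finset.mem_insert.1 hb with h | h
        · exact h
        · exact absurd hbR (Finset.disjoint_left.1 hdis h)
      · obtain ⟨a, ha, haA, hau⟩ := hA2 R (Finset.mem_erase.2 ⟨hRQ, hR⟩)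
        refine ⟨a, ha, Finset.mem_insert_of_mem haA, ?_⟩
        intro b hb hbR
        rcases Finset.mem_insert.1 hb with h | h
        · exfalso
          rw [h] at hbR
          exact Finset.disjoint_left.1 (h2 R hR Q hQF hRQ) hbR hq
        · exact hau b h hbR

/-- exchange when a clique is completely blocked -/
theorem switch (G : SimpleGraph V) [DecidableEq V] (Q Q2 A : Finset V) (M : ℕ) (hM : 4 ≤ M)
    (hno : ¬ HasC G (M + 1)) (hQ : Clq G Q) (hQc : Q.card = M) (hQ2c : Clq G Q2)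
    (hQ2M : Q2.card = M) (hQQ2 : Disjoint Q Q2) (hAQ : Disjoint A Q) (hAi : Ind G A)
    (hAM : A.card ≤ M) (hblk : ∀ q ∈ Q, ∃ x ∈ A, G.Adj x q) {a2 : V} (ha2 : a2 ∈ Q2)
    (ha2A : a2 ∈ A) (ha2u : ∀ b ∈ A, b ∈ Q2 → b = a2) :
    ∃ q2 ∈ Q, ∃ b ∈ Q2, Ind G (insert q2 (insert b (A.erase a2))) ∧
      (insert q2 (insert b (A.erase a2))).card = M + 1 := by
  classical
  obtain ⟨hAM', hbij⟩ := blocked G Q A M (by omega) hno hQ hQc hAQ hblk hAM
  obtain ⟨q2, hq2, ha2q2, hq2u⟩ := hbij a2 ha2A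
  by_cases hfree : ∃ b ∈ Q2, b ≠ a2 ∧ ∀ x ∈ A.erase a2, ¬ G.Adj x b
  · obtain ⟨b, hb, hba, hbA⟩ := hfree
    have hbnA : b ∉ A.erase a2 := fun h => hba (ha2u b (Finset.mem_of_mem_erase h) hb)
    have hA3 : Ind G (insert b (A.erase a2)) := by
      refine Ind.insert ?_ (fun a ha h => hbA a ha h)
      intro x hx y hy
      exact hAi x (Finset.mem_of_mem_erase hx) y (Finset.mem_of_mem_erase hy)
    have hq2n : ∀ x ∈ insert b (A.erase a2), ¬ G.Adj x q2 := by
      intro x hx hxq
      rcases Finset.mem_insert.1 hx with rfl | hx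
      · exact hno (two_nbrs G Q2 M (by omega) hQ2c hQ2M (Finset.disjoint_left.1 hQQ2 hq2)
          hb ha2 hba hxq.symm ha2q2.symm)
      · exact Finset.ne_of_mem_erase hx (hq2u x (Finset.mem_of_mem_erase hx) hxq)
    have hq2A : q2 ∉ insert b (A.erase a2) := by
      intro h
      rcases Finset.mem_insert.1 h with h | h
      · exact Finset.disjoint_left.1 hQQ2 hq2 (h ▸ hb)
      · exact Finset.disjoint_left.1 hAQ (Finset.mem_of_mem_erase h) hq2
    refine ⟨q2, hq2, b, hb, hA3.insert (fun a ha h => hq2n a ha h), ?_⟩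
    rw [Finset.card_insert_of_notMem hq2A, Finset.card_insert_of_notMem hbnA,
      Finset.card_erase_of_mem ha2A]
    omega
  · push Not at hfree
    obtain ⟨b, hb, hba⟩ := Finset.exists_mem_ne (s := Q2) (by omega) a2
    obtain ⟨x, hx, hxb⟩ := hfree b hb hba
    have hxA := Finset.mem_of_mem_erase hx
    obtain ⟨q, hq, hxq, hqu⟩ := hbij x hxA
    have hqq : q ≠ q2 := by
      rintro rfl
      exact Finset.ne_of_mem_erase hx (hq2u x hxA hxq)
    have hxQ2 : x ∉ Q2 := fun h => Finset.ne_of_mem_erase hx (ha2u x hxA h)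
    exact absurd (tri_cross G Q Q2 M (by omega) hQ hQ2c hQc hQ2M hQQ2
      (Finset.disjoint_left.1 hAQ hxA) hxQ2 hq hq2 hb ha2 hqq hba hxq hxb ha2q2) hno

theorem Part.sum {G : SimpleGraph V} [DecidableEq V] {W : Finset V} {M k : ℕ}
    {F : Finset (Finset V)} (hFc : F.card = k) (hF : ∀ Q ∈ F, Q ⊆ W ∧ Clq G Q ∧ Q.card = M)
    (hFd : ∀ Q ∈ F, ∀ Q' ∈ F, Q ≠ Q' → Disjoint Q Q') (hW : W.card = M * k) :
    F.biUnion id = W := by
  classical
  refine Finset.eq_of_subset_of_card_le ?_ ?_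
  · intro v hv
    obtain ⟨Q, hQ, hvQ⟩ := Finset.mem_biUnion.1 hv
    exact (hF Q hQ).1 hvQ
  · rw [Finset.card_biUnion (t := id) (fun Q hQ Q' hQ' h => hFd Q hQ Q' hQ' h)]
    have h1 : ∑ Q ∈ F, (id Q : Finset V).card = ∑ Q ∈ F, M :=
      Finset.sum_congr rfl (fun Q hQ => (hF Q hQ).2.2)
    rw [h1, Finset.sum_const, smul_eq_mul, hFc, hW, Nat.mul_comm]

theorem star_upper (G : SimpleGraph V) [DecidableEq V] (M k : ℕ) (hM : 4 ≤ M) (hk1 : 1 ≤ k)
    (hk : k ≤ M) (hno : ¬ HasC G (M + 1)) (W S : Finset V) (v : V) (hW : W.card = M * k)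
    (hv : v ∉ W) (hS : S ⊆ W) (hSc : S.card = M * (k - 1) + 2) :
    ∃ T : Finset V, T ⊆ insert v W ∧ Ind G T ∧ T.card = k + 1 ∧
      (v ∈ T → ∀ x ∈ T, x ≠ v → x ∈ S) := by
  classical
  by_contra hcon
  push Not at hcon
  have hal : AlLe G W k := by
    intro I hI hIi
    by_contra hlt
    push Not at hlt
    obtain ⟨J, hJI, hJc⟩ := Finset.exists_subset_card_eq (s := I) (n := k + 1) (by omega)
    obtain ⟨h1, -⟩ := hcon J ((hJI.trans hI).trans (Finset.subset_insert _ _))
      (fun a ha b hb => hIi a (hJI ha) b (hJI hb)) hJc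
    exact hv (hI (hJI h1))
  obtain ⟨F, hFc, hF, hFd⟩ := structure_thm M hM G hno k hk W hW hal
  have hU := Part.sum (G := G) hFc hF hFd hW
  have hsumS : ∑ Q ∈ F, (Q \ S).card = (W \ S).card := by
    rw [← Finset.card_biUnion (fun Q hQ Q' hQ' h => Finset.disjoint_of_subset_left
      Finset.sdiff_subset (Finset.disjoint_of_subset_right Finset.sdiff_subset
        (hFd Q hQ Q' hQ' h)))]
    congr 1
    rw [← hU]
    ext x
    simp only [Finset.mem_biUnion, Finset.mem_sdiff, id]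
    constructor
    · rintro ⟨Q, hQ, h1, h2⟩; exact ⟨⟨Q, hQ, h1⟩, h2⟩
    · rintro ⟨⟨Q, hQ, h1⟩, h2⟩; exact ⟨Q, hQ, h1, h2⟩
  have hWS : (W \ S).card + S.card = W.card := Finset.card_sdiff_add_card_eq_card hS
  have hmul : M * k = M * (k - 1) + M := by
    obtain ⟨d, rfl⟩ := Nat.exists_eq_add_of_le hk1
    rw [show 1 + d - 1 = d by omega]
    ring
  have hdef : ∑ Q ∈ F, (Q \ S).card + 2 ≤ M := by omega
  have hvF : ∀ Q ∈ F, Clq G Q ∧ Q.card = M ∧ v ∉ Q := fun Q hQ =>
    ⟨(hF Q hQ).2.1, (hF Q hQ).2.2, fun h => hv ((hF Q hQ).1 h)⟩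
  have hfin : ∀ A : Finset V, v ∈ A → Ind G A → A.card = k + 1 →
      (∀ x ∈ A, x = v ∨ x ∈ S) → False := by
    intro A hvA hA hAc hA1
    obtain ⟨-, x, hx, hxv, hxS⟩ := hcon A (by
      intro x hx
      rcases hA1 x hx with h | h
      · rw [h]; exact Finset.mem_insert_self _ _
      · exact Finset.mem_insert_of_mem (hS h)) hA hAc
    rcases hA1 x hx with h | h
    · exact hxv h
    · exact hxS h
  rcases Nat.lt_or_ge k M with hkM | hkM
  · obtain ⟨A, hvA, hA, hAc, hA1, -⟩ := transv G M (by omega) hno v S k F hFc hvF hFd (by omega)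
      hdef
    exact hfin A hvA hA (by omega) (fun x hx => (hA1 x hx).imp id (fun h => h.1))
  · have hkM' : k = M := by omega
    -- a clique inside `S`
    have hex : ∀ F' : Finset (Finset V), F' ⊆ F → M ≤ F'.card + 1 → ∃ Q ∈ F', Q ⊆ S := by
      intro F' hF' hc
      by_contra hcon2
      push Not at hcon2
      have h1 : ∑ Q ∈ F', 1 ≤ ∑ Q ∈ F', (Q \ S).card := by
        refine Finset.sum_le_sum fun Q hQ => ?_
        rw [Nat.one_le_iff_ne_zero, Ne, Finset.card_eq_zero, Finset.sdiff_eq_empty_iff_subset]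
        exact hcon2 Q hQ
      have h2 : ∑ Q ∈ F', (Q \ S).card ≤ ∑ Q ∈ F, (Q \ S).card :=
        Finset.sum_le_sum_of_subset hF'
      rw [Finset.sum_const, smul_eq_mul, Nat.mul_one] at h1
      omega
    obtain ⟨Q, hQF, hQS⟩ := hex F subset_rfl (by omega)
    have hEc : (F.erase Q).card = k - 1 := by rw [Finset.card_erase_of_mem hQF]; omega
    have hsumE : ∑ R ∈ F.erase Q, (R \ S).card ≤ ∑ R ∈ F, (R \ S).card :=
      Finset.sum_le_sum_of_subset (Finset.erase_subset _ _)
    obtain ⟨A, hvA, hA, hAc, hA1, hA2⟩ := transv G M (by omega) hno v S (k - 1) (F.erase Q) hEc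
      (fun R hR => hvF R (Finset.mem_of_mem_erase hR))
      (fun R hR R' hR' => hFd R (Finset.mem_of_mem_erase hR) R' (Finset.mem_of_mem_erase hR'))
      (by omega) (by omega)
    obtain ⟨hQ, hQc, hvQ⟩ := hvF Q hQF
    have hAQ : Disjoint A Q := by
      rw [Finset.disjoint_left]
      intro x hx hxQ
      rcases hA1 x hx with h | ⟨_, R, hR, hxR⟩
      · exact hvQ (h ▸ hxQ)
      · exact Finset.disjoint_left.1 (hFd R (Finset.mem_of_mem_erase hR) Q hQF
          (Finset.ne_of_mem_erase hR)) hxR hxQ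
    have hblk : ∀ q ∈ Q, ∃ x ∈ A, G.Adj x q := by
      by_contra hcon2
      push Not at hcon2
      obtain ⟨q, hq, hqA⟩ := hcon2
      have hqnA : q ∉ A := fun h => Finset.disjoint_left.1 hAQ h hq
      refine hfin (insert q A) (Finset.mem_insert_of_mem hvA) (hA.insert (fun a ha h => hqA a ha h))
        (by rw [Finset.card_insert_of_notMem hqnA]; omega) ?_
      intro x hx
      rcases Finset.mem_insert.1 hx with rfl | hx
      · exact Or.inr (hQS hq)
      · exact (hA1 x hx).imp id (fun h => h.1)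
    obtain ⟨Q2, hQ2E, hQ2S⟩ := hex (F.erase Q) (Finset.erase_subset _ _) (by omega)
    have hQ2F := Finset.mem_of_mem_erase hQ2E
    obtain ⟨hQ2, hQ2c, hvQ2⟩ := hvF Q2 hQ2F
    obtain ⟨a2, ha2, ha2A, ha2u⟩ := hA2 Q2 hQ2E
    obtain ⟨q2, hq2, b, hb, hI, hIc⟩ := switch G Q Q2 A M (by omega) hno hQ hQc hQ2 hQ2c
      (hFd Q hQF Q2 hQ2F (Finset.ne_of_mem_erase hQ2E).symm) hAQ hA (by omega) hblk ha2 ha2A ha2u
    refine hfin _ ?_ hI (by omega) ?_
    · refine Finset.mem_insert_of_mem (Finset.mem_insert_of_mem (Finset.mem_erase.2 ⟨?_, hvA⟩))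
      rintro rfl
      exact hvQ2 ha2
    · intro x hx
      rcases Finset.mem_insert.1 hx with rfl | hx
      · exact Or.inr (hQS hq2)
      rcases Finset.mem_insert.1 hx with rfl | hx
      · exact Or.inr (hQ2S hb)
      · exact (hA1 x (Finset.mem_of_mem_erase hx)).imp id (fun h => h.1)

end Vale.Agent.P048.H448
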