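import Vale.Agent.P048.H448.Small

set_option linter.all false
set_option autoImplicit false

/-!
The structure of the extremal graphs: partition into cliques.
-/

namespace Vale.Agent.P048.H448

open Finset Vale.Agent.P048

variable {V : Type*}

theorem IsPath.sing (G : SimpleGraph V) (x : V) : IsPath G x x [x] := by
  refine ⟨⟨by simp, by simp⟩, rfl, rfl⟩

theorem IsPath.cons {G : SimpleGraph V} {x u v : V} {l : List V} (h : IsPath G u v l)
    (hx : x ∉ l) (ha : G.Adj x u) : IsPath G x v (x :: l) := by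
  obtain ⟨⟨h1, h2⟩, h3, h4⟩ := h
  cases l with
  | nil => simp at h3
  | cons y t =>
    simp only [List.head?_cons, Option.some.injEq] at h3
    subst h3
    refine ⟨⟨?_, List.nodup_cons.2 ⟨hx, h2⟩⟩, rfl, ?_⟩
    · exact List.isChain_cons_cons.2 ⟨ha, h1⟩
    · rw [List.getLast?_cons_cons]; exact h4

/-- a vertex outside a clique with `M` vertices has at most one neighbour in it -/
theorem two_nbrs (G : SimpleGraph V) (Q : Finset V) (M : ℕ) (hM : 2 ≤ M) (hQ : Clq G Q)
    (hc : Q.card = M) {x a b : V} (hx : x ∉ Q) (ha : a ∈ Q) (hb : b ∈ Q) (hab : a ≠ b)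
    (h1 : G.Adj x a) (h2 : G.Adj x b) : HasC G (M + 1) := by
  classical
  obtain ⟨R, hR, hRl, hRQ⟩ := clique_path G Q hQ a b ha hb hab M hM (by omega)
  refine ⟨[x] ++ R, by simp [hRl], (IsPath.sing G x).close hR ?_ h1 h2.symm⟩
  intro w hw hwR
  rw [List.mem_singleton] at hw
  exact hx (hw ▸ hRQ w hwR)

/-- two disjoint cliques with `M` vertices are joined by at most one edge -/
theorem two_cross (G : SimpleGraph V) (Q Q' : Finset V) (M : ℕ) (hM : 3 ≤ M) (hQ : Clq G Q)
    (hQ' : Clq G Q') (hc : Q.card = M) (hc' : Q'.card = M) (hd : Disjoint Q Q') {a b a' b' : V}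
    (ha : a ∈ Q) (hb : b ∈ Q) (ha' : a' ∈ Q') (hb' : b' ∈ Q') (h1 : G.Adj a a')
    (h2 : G.Adj b b') (hne : ¬ (a = b ∧ a' = b')) : HasC G (M + 1) := by
  classical
  rw [Finset.disjoint_left] at hd
  rcases eq_or_ne a b with rfl | hab
  · have hab' : a' ≠ b' := fun h => hne ⟨rfl, h⟩
    exact two_nbrs G Q' M (by omega) hQ' hc' (hd ha) ha' hb' hab' h1 h2
  · rcases eq_or_ne a' b' with rfl | hab'
    · exact two_nbrs G Q M (by omega) hQ hc (fun h => hd h ha') ha hb hab h1.symm h2.symm
    · obtain ⟨R, hR, hRl, hRQ⟩ := clique_path G Q hQ a b ha hb hab (M - 1) (by omega) (by omega)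
      obtain ⟨R', hR', hRl', hRQ'⟩ := clique_path G Q' hQ' b' a' hb' ha' hab'.symm 2 (by omega)
        (by omega)
      refine ⟨R ++ R', by simp [hRl, hRl']; omega, hR.close hR' ?_ h2 h1.symm⟩
      intro w hw hwR
      exact hd (hRQ w hw) (hRQ' w hwR)

/-- a triangle through two cliques -/
theorem tri_cross (G : SimpleGraph V) (Q Q' : Finset V) (M : ℕ) (hM : 4 ≤ M) (hQ : Clq G Q)
    (hQ' : Clq G Q') (hc : Q.card = M) (hc' : Q'.card = M) (hd : Disjoint Q Q')
    {x q q2 b a2 : V} (hx : x ∉ Q) (hx' : x ∉ Q')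
    (hq : q ∈ Q) (hq2 : q2 ∈ Q) (hb : b ∈ Q') (ha2 : a2 ∈ Q') (hqq : q ≠ q2) (hba : b ≠ a2)
    (h1 : G.Adj x q) (h2 : G.Adj x b) (h3 : G.Adj a2 q2) : HasC G (M + 1) := by
  classical
  rw [Finset.disjoint_left] at hd
  obtain ⟨R, hR, hRl, hRQ⟩ := clique_path G Q hQ q q2 hq hq2 hqq (M - 2) (by omega) (by omega)
  obtain ⟨R', hR', hRl', hRQ'⟩ := clique_path G Q' hQ' a2 b ha2 hb hba.symm 2 (by omega)
    (by omega)
  have hR1 : IsPath G x q2 (x :: R) := IsPath.cons hR (fun h => hx (hRQ x h)) h1
  refine ⟨(x :: R) ++ R', by simp [hRl, hRl']; omega, hR1.close hR' ?_ h3.symm h2.symm⟩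
  intro w hw hwR
  rcases List.mem_cons.1 hw with rfl | hw
  · exact hx' (hRQ' w hwR)
  · exact hd (hRQ w hw) (hRQ' w hwR)

/-- two vertices attached to a clique at different vertices have no common neighbour outside -/
theorem no_common (G : SimpleGraph V) (Q : Finset V) (M : ℕ) (hM : 4 ≤ M) (hQ : Clq G Q)
    (hc : Q.card = M) {x y z q q' : V} (hx : x ∉ Q) (hy : y ∉ Q) (hz : z ∉ Q) (hxy : x ≠ y)
    (hq : q ∈ Q) (hq' : q' ∈ Q) (hqq : q ≠ q') (h1 : G.Adj x q) (h2 : G.Adj y q')
    (h3 : G.Adj x z) (h4 : G.Adj y z) : HasC G (M + 1) := by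
  classical
  obtain ⟨R, hR, hRl, hRQ⟩ := clique_path G Q hQ q' q hq' hq hqq.symm (M - 2) (by omega)
    (by omega)
  have hzx : z ≠ x := h3.ne.symm
  have hzy : z ≠ y := h4.ne.symm
  have hY : IsPath G x y [x, z, y] := by
    refine IsPath.cons (IsPath.cons (IsPath.sing G y) (by simpa using hzy) h4.symm) ?_ h3
    simp only [List.mem_cons, List.not_mem_nil, or_false, not_or]
    exact ⟨hzx.symm, hxy⟩
  refine ⟨[x, z, y] ++ R, by simp [hRl]; omega, hY.close hR ?_ h2 h1.symm⟩
  intro w hw hwR
  have hwQ := hRQ w hwR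
  simp only [List.mem_cons, List.not_mem_nil, or_false] at hw
  rcases hw with rfl | rfl | rfl
  · exact hx hwQ
  · exact hz hwQ
  · exact hy hwQ

/-- partition of (part of) `W` into `k` cliques with `M` vertices -/
def Part (G : SimpleGraph V) (W : Finset V) (M k : ℕ) : Prop :=
  ∃ F : Finset (Finset V), F.card = k ∧ (∀ Q ∈ F, Q ⊆ W ∧ Clq G Q ∧ Q.card = M) ∧
    ∀ Q ∈ F, ∀ Q' ∈ F, Q ≠ Q' → Disjoint Q Q'

/-- a set which blocks a clique is large, and its vertices have different neighbours -/
theorem blocked (G : SimpleGraph V) (Q A : Finset V) (M : ℕ) (hM : 2 ≤ M)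
    (hno : ¬ HasC G (M + 1)) (hQ : Clq G Q)
    (hc : Q.card = M) (hd : Disjoint A Q) (hb : ∀ q ∈ Q, ∃ x ∈ A, G.Adj x q) (hA : A.card ≤ M) :
    A.card = M ∧ ∀ x ∈ A, ∃ q ∈ Q, G.Adj x q ∧ ∀ y ∈ A, G.Adj y q → y = x := by
  classical
  rw [Finset.disjoint_left] at hd
  choose! φ hφ using hb
  have hinj : Set.InjOn φ Q := by
    intro q hq q' hq' h
    by_contra hne
    have h1 := hφ q hq
    have h2 := hφ q' hq'
    rw [← h] at h2
    exact hno (two_nbrs G Q M hM hQ hc (hd h1.1) hq hq' hne h1.2 h2.2)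
  have himg : Q.image φ ⊆ A := by
    intro x hx
    obtain ⟨q, hq, rfl⟩ := Finset.mem_image.1 hx
    exact (hφ q hq).1
  have hcard : (Q.image φ).card = M := by rw [Finset.card_image_of_injOn hinj, hc]
  have heq : Q.image φ = A := Finset.eq_of_subset_of_card_le himg (by omega)
  refine ⟨by rw [← heq, hcard], ?_⟩
  intro x hx
  rw [← heq] at hx
  obtain ⟨q, hq, rfl⟩ := Finset.mem_image.1 hx
  refine ⟨q, hq, (hφ q hq).2, ?_⟩
  intro y hy hyq
  rw [← heq] at hy
  obtain ⟨q', hq', rfl⟩ := Finset.mem_image.1 hy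
  rcases eq_or_ne q' q with h | h
  · rw [h]
  · exact absurd (two_nbrs G Q M hM hQ hc (hd (hφ q' hq').1) hq' hq h (hφ q' hq').2 hyq) hno

/-- the greedy independent transversal -/
theorem greedy (G : SimpleGraph V) (M : ℕ) (hM : 2 ≤ M) (hno : ¬ HasC G (M + 1)) (I : Finset V)
    (hI : Ind G I) : ∀ F : Finset (Finset V), (∀ Q ∈ F, Clq G Q ∧ Q.card = M ∧ Disjoint I Q) →
    (∀ Q ∈ F, ∀ Q' ∈ F, Q ≠ Q' → Disjoint Q Q') → I.card + F.card ≤ M →
    ∃ A : Finset V, I ⊆ A ∧ Ind G A ∧ A.card = I.card + F.card ∧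
      (∀ v ∈ A, v ∈ I ∨ ∃ Q ∈ F, v ∈ Q) ∧
      ∀ Q ∈ F, ∃ a ∈ Q, a ∈ A ∧ ∀ b ∈ A, b ∈ Q → b = a := by
  classical
  intro F
  induction F using Finset.induction_on with
  | empty =>
    intro _ _ _
    exact ⟨I, subset_rfl, hI, by simp, fun v hv => Or.inl hv, by simp⟩
  | insert Q F hQF ih =>
    intro h1 h2 h3
    rw [Finset.card_insert_of_notMem hQF] at h3
    obtain ⟨A, hIA, hA, hAc, hA1, hA2⟩ := ih (fun R hR => h1 R (Finset.mem_insert_of_mem hR))
      (fun R hR R' hR' => h2 R (Finset.mem_insert_of_mem hR) R' (Finset.mem_insert_of_mem hR'))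
      (by omega)
    obtain ⟨hQ, hQc, hQI⟩ := h1 Q (Finset.mem_insert_self _ _)
    have hdis : Disjoint A Q := by
      rw [Finset.disjoint_left]
      intro v hv hvQ
      rcases hA1 v hv with h | ⟨R, hR, hvR⟩
      · exact Finset.disjoint_left.1 hQI h hvQ
      · have hne : R ≠ Q := fun h => hQF (h ▸ hR)
        exact Finset.disjoint_left.1 (h2 R (Finset.mem_insert_of_mem hR) Q
          (Finset.mem_insert_self _ _) hne) hvR hvQ
    have hfree : ∃ q ∈ Q, ∀ x ∈ A, ¬ G.Adj x q := by
      by_contra hcon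
      push Not at hcon
      have := (blocked G Q A M hM hno hQ hQc hdis hcon (by omega)).1
      omega
    obtain ⟨q, hq, hqA⟩ := hfree
    have hqnA : q ∉ A := fun h => Finset.disjoint_left.1 hdis h hq
    refine ⟨insert q A, hIA.trans (Finset.subset_insert _ _), hA.insert (fun a ha h => hqA a ha h),
      ?_, ?_, ?_⟩
    · rw [Finset.card_insert_of_notMem hqnA, Finset.card_insert_of_notMem hQF, hAc]
      omega
    · intro v hv
      rcases Finset.mem_insert.1 hv with rfl | hv
      · exact Or.inr ⟨Q, Finset.mem_insert_self _ _, hq⟩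
      · rcases hA1 v hv with h | ⟨R, hR, hvR⟩
        · exact Or.inl h
        · exact Or.inr ⟨R, Finset.mem_insert_of_mem hR, hvR⟩
    · intro R hR
      rcases Finset.mem_insert.1 hR with rfl | hR
      · refine ⟨q, hq, Finset.mem_insert_self _ _, ?_⟩
        intro b hb hbR
        rcases Finset.mem_insert.1 hb with h | h
        · exact h
        · exact absurd hbR (Finset.disjoint_left.1 hdis h)
      · obtain ⟨a, ha, haA, hau⟩ := hA2 R hR
        refine ⟨a, ha, Finset.mem_insert_of_mem haA, ?_⟩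
        intro b hb hbR
        rcases Finset.mem_insert.1 hb with h | h
        · exfalso
          rw [h] at hbR
          have hne : R ≠ Q := fun h => hQF (h ▸ hR)
          exact Finset.disjoint_left.1 (h2 R (Finset.mem_insert_of_mem hR) Q
            (Finset.mem_insert_self _ _) hne) hbR hq
        · exact hau b h hbR

/-- the independence number after removal of a closed neighbourhood -/
theorem alLe_sdiff (G : SimpleGraph V) [DecidableEq V] (W J : Finset V) (k : ℕ)
    (hal : AlLe G W k) (hJW : J ⊆ W) (hJi : Ind G J) : AlLe G (W \ nbc G W J) (k - J.card) := by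
  classical
  intro I hI hInd
  have hJsub : J ⊆ nbc G W J := fun v hv => mem_nbc.2 ⟨hJW hv, Or.inl hv⟩
  have hdisj : Disjoint I J := by
    rw [Finset.disjoint_left]
    intro v hv hvJ
    exact (Finset.mem_sdiff.1 (hI hv)).2 (hJsub hvJ)
  have hind : Ind G (I ∪ J) := by
    have hno : ∀ a ∈ I, ∀ b ∈ J, ¬ G.Adj a b := by
      intro a ha b hb hab
      have h1 := Finset.mem_sdiff.1 (hI ha)
      exact h1.2 (mem_nbc.2 ⟨h1.1, Or.inr ⟨b, hb, hab.symm⟩⟩)
    intro a ha b hb hab
    rcases Finset.mem_union.1 ha with ha | ha <;> rcases Finset.mem_union.1 hb with hb | hb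
    · exact hInd a ha b hb hab
    · exact hno a ha b hb hab
    · exact hno b hb a ha hab.symm
    · exact hJi a ha b hb hab
  have hle := hal (I ∪ J) (Finset.union_subset (fun v hv => (Finset.mem_sdiff.1 (hI hv)).1) hJW)
    hind
  rw [Finset.card_union_of_disjoint hdisj] at hle
  omega

/-- The closed neighbourhood of a tight independent set has small independence number. -/
theorem tight_alLe (G : SimpleGraph V) [DecidableEq V] (W W1 W2 : Finset V) (M k j : ℕ)
    (hM : 4 ≤ M) (hk : k ≤ M) (hj : 1 ≤ j) (hjk : j < k) (hno : ¬ HasC G (M + 1))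
    (hal : AlLe G W k) (hW1 : W1 ⊆ W) (hW2 : W2 ⊆ W) (hd : Disjoint W1 W2)
    (hcov : ∀ v ∈ W, v ∈ W1 ∨ v ∈ W2) (hc1 : W1.card = M * j)
    (hc2 : W2.card = M * (k - j)) (hP : Part G W2 M (k - j))
    (hdeg : j = 1 ∨ ∀ v ∈ W, M ≤ dg G W v) : AlLe G W1 j := by
  classical
  intro I0 hI0 hI0i
  by_contra hlt
  push Not at hlt
  obtain ⟨I, hII0, hIc⟩ := Finset.exists_subset_card_eq (s := I0) (n := j + 1) (by omega)
  have hI1 : I ⊆ W1 := hII0.trans hI0
  have hIi : Ind G I := fun a ha b hb => hI0i a (hII0 ha) b (hII0 hb)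
  obtain ⟨F, hFc, hF, hFd⟩ := hP
  have hFne : F.Nonempty := Finset.card_pos.1 (by omega)
  obtain ⟨Q, hQF⟩ := hFne
  have hFI : ∀ R ∈ F, Disjoint I R := by
    intro R hR
    rw [Finset.disjoint_left]
    intro v hv hvR
    exact Finset.disjoint_left.1 hd (hI1 hv) ((hF R hR).1 hvR)
  obtain ⟨A, hIA, hAi, hAc, hA1, hA2⟩ := greedy G M (by omega) hno I hIi (F.erase Q)
    (fun R hR => ⟨(hF R (Finset.mem_of_mem_erase hR)).2.1, (hF R (Finset.mem_of_mem_erase hR)).2.2,
      hFI R (Finset.mem_of_mem_erase hR)⟩)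
    (fun R hR R' hR' => hFd R (Finset.mem_of_mem_erase hR) R' (Finset.mem_of_mem_erase hR'))
    (by rw [Finset.card_erase_of_mem hQF]; omega)
  rw [Finset.card_erase_of_mem hQF, hIc, hFc] at hAc
  have hAk : A.card = k := by omega
  obtain ⟨hQW, hQ, hQc⟩ := hF Q hQF
  have hAQ : Disjoint A Q := by
    rw [Finset.disjoint_left]
    intro v hv hvQ
    rcases hA1 v hv with h | ⟨R, hR, hvR⟩
    · exact Finset.disjoint_left.1 (hFI Q hQF) h hvQ
    · exact Finset.disjoint_left.1 (hFd R (Finset.mem_of_mem_erase hR) Q hQF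
        (Finset.ne_of_mem_erase hR)) hvR hvQ
  have hAW : A ⊆ W := by
    intro v hv
    rcases hA1 v hv with h | ⟨R, hR, hvR⟩
    · exact hW1 (hI1 h)
    · exact hW2 ((hF R (Finset.mem_of_mem_erase hR)).1 hvR)
  -- the clique `Q` is blocked
  have hblk : ∀ q ∈ Q, ∃ x ∈ A, G.Adj x q := by
    by_contra hcon
    push Not at hcon
    obtain ⟨q, hq, hqA⟩ := hcon
    have hqnA : q ∉ A := fun h => Finset.disjoint_left.1 hAQ h hq
    have := hal (insert q A) (Finset.insert_subset (hW2 (hQW hq)) hAW)
      (hAi.insert (fun a ha h => hqA a ha h))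
    rw [Finset.card_insert_of_notMem hqnA] at this
    omega
  obtain ⟨hAM, hbij⟩ := blocked G Q A M (by omega) hno hQ hQc hAQ hblk (by omega)
  have hkM : k = M := by omega
  rcases Nat.lt_or_ge 1 (k - j) with ht | ht
  · -- at least two cliques
    have hcE : (F.erase Q).Nonempty := Finset.card_pos.1 (by
      rw [Finset.card_erase_of_mem hQF]; omega)
    obtain ⟨Q2, hQ2⟩ := hcE
    have hQ2F := Finset.mem_of_mem_erase hQ2
    have hQQ2 : Disjoint Q Q2 := hFd Q hQF Q2 hQ2F (Finset.ne_of_mem_erase hQ2).symm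
    obtain ⟨hQ2W, hQ2c, hQ2M⟩ := hF Q2 hQ2F
    obtain ⟨a2, ha2, ha2A, ha2u⟩ := hA2 Q2 hQ2
    obtain ⟨q2, hq2, ha2q2, hq2u⟩ := hbij a2 ha2A
    by_cases hfree : ∃ b ∈ Q2, b ≠ a2 ∧ ∀ x ∈ A.erase a2, ¬ G.Adj x b
    · obtain ⟨b, hb, hba, hbA⟩ := hfree
      have hbnA : b ∉ A.erase a2 := fun h => hba (ha2u b (Finset.mem_of_mem_erase h) hb)
      have hA3 : Ind G (insert b (A.erase a2)) := by
        refine Ind.insert ?_ (fun a ha h => hbA a ha h)
        intro x hx y hy
        exact hAi x (Finset.mem_of_mem_erase hx) y (Finset.mem_of_mem_erase hy)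
      have hq2n : ∀ x ∈ insert b (A.erase a2), ¬ G.Adj x q2 := by
        intro x hx hxq
        rcases Finset.mem_insert.1 hx with rfl | hx
        · exact hno (two_nbrs G Q2 M (by omega) hQ2c hQ2M (Finset.disjoint_left.1 hQQ2 hq2)
            hb ha2 hba hxq.symm ha2q2.symm)
        · exact Finset.ne_of_mem_erase hx (hq2u x (Finset.mem_of_mem_erase hx) hxq)
      have hq2A : q2 ∉ insert b (A.erase a2) := by
        intro h
        rcases Finset.mem_insert.1 h with h | h
        · exact Finset.disjoint_left.1 hQQ2 hq2 (h ▸ hb)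
        · exact Finset.disjoint_left.1 hAQ (Finset.mem_of_mem_erase h) hq2
      have := hal (insert q2 (insert b (A.erase a2))) (by
        intro v hv
        rcases Finset.mem_insert.1 hv with rfl | hv
        · exact hW2 (hQW hq2)
        rcases Finset.mem_insert.1 hv with rfl | hv
        · exact hW2 (hQ2W hb)
        · exact hAW (Finset.mem_of_mem_erase hv)) (hA3.insert (fun a ha h => hq2n a ha h))
      rw [Finset.card_insert_of_notMem hq2A, Finset.card_insert_of_notMem hbnA,
        Finset.card_erase_of_mem ha2A] at this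
      omega
    · push Not at hfree
      obtain ⟨b, hb, hba⟩ := Finset.exists_mem_ne (s := Q2) (by omega) a2
      obtain ⟨x, hx, hxb⟩ := hfree b hb hba
      have hxA := Finset.mem_of_mem_erase hx
      obtain ⟨q, hq, hxq, hqu⟩ := hbij x hxA
      have hqq : q ≠ q2 := by
        rintro rfl
        exact Finset.ne_of_mem_erase hx (hq2u x hxA hxq)
      have hxQ2 : x ∉ Q2 := fun h => Finset.ne_of_mem_erase hx (ha2u x hxA h)
      exact hno (tri_cross G Q Q2 M (by omega) hQ hQ2c hQc hQ2M hQQ2
        (Finset.disjoint_left.1 hAQ hxA) hxQ2 hq hq2 hb ha2 hqq hba hxq hxb ha2q2)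
  · -- only one clique
    have hjM : j = M - 1 := by omega
    have hdeg' : ∀ v ∈ W, M ≤ dg G W v := by
      rcases hdeg with h | h
      · omega
      · exact h
    have hAI : A = I := by
      refine (Finset.eq_of_subset_of_card_le hIA ?_).symm
      omega
    subst hAI
    have hW2Q : W2 = Q := by
      refine (Finset.eq_of_subset_of_card_le hQW ?_).symm
      rw [hc2, hQc, show k - j = 1 by omega, Nat.mul_one]
    have hpd : ∀ x ∈ A, ∀ y ∈ A, x ≠ y → Disjoint (W1.filter (fun v => v = x ∨ G.Adj x v))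
        (W1.filter (fun v => v = y ∨ G.Adj y v)) := by
      intro x hx y hy hxy
      rw [Finset.disjoint_left]
      intro z hz1 hz2
      rw [Finset.mem_filter] at hz1 hz2
      have hzQ : z ∉ Q := by
        rw [← hW2Q]
        exact Finset.disjoint_left.1 hd hz1.1
      obtain ⟨q, hq, hxq, hqu⟩ := hbij x hx
      obtain ⟨q', hq', hyq, hqu'⟩ := hbij y hy
      have hqq : q ≠ q' := by
        rintro rfl
        exact hxy (hqu' x hx hxq)
      rcases hz1.2 with rfl | h1 <;> rcases hz2.2 with h2 | h2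
      · exact hxy h2
      · exact hAi y hy z hx h2
      · rw [h2] at h1
        exact hAi x hx y hy h1
      · exact hno (no_common G Q M (by omega) hQ hQc (Finset.disjoint_left.1 hAQ hx)
          (Finset.disjoint_left.1 hAQ hy) hzQ hxy hq hq' hqq hxq hyq h1 h2)
    have hbig : ∀ x ∈ A, M ≤ (W1.filter (fun v => v = x ∨ G.Adj x v)).card := by
      intro x hx
      have hxW : x ∈ W := hAW hx
      have h1 := hdeg' x hxW
      rw [dg_eq_filter] at h1
      have h2 : (Q.filter (G.Adj x)).card ≤ 1 := by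
        by_contra hcon
        push Not at hcon
        obtain ⟨a, ha, b, hb, hab⟩ := Finset.one_lt_card.1 hcon
        rw [Finset.mem_filter] at ha hb
        exact hno (two_nbrs G Q M (by omega) hQ hQc (Finset.disjoint_left.1 hAQ hx) ha.1 hb.1 hab
          ha.2 hb.2)
      have h3 : W.filter (G.Adj x) ⊆ (W1.filter (G.Adj x)) ∪ (Q.filter (G.Adj x)) := by
        intro v hv
        rw [Finset.mem_filter] at hv
        rw [Finset.mem_union, Finset.mem_filter, Finset.mem_filter]
        rcases hcov v hv.1 with h | h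
        · exact Or.inl ⟨h, hv.2⟩
        · exact Or.inr ⟨hW2Q ▸ h, hv.2⟩
      have h4 : insert x (W1.filter (G.Adj x)) ⊆ W1.filter (fun v => v = x ∨ G.Adj x v) := by
        intro v hv
        rw [Finset.mem_filter]
        rcases Finset.mem_insert.1 hv with rfl | hv
        · exact ⟨hI1 hx, Or.inl rfl⟩
        · rw [Finset.mem_filter] at hv
          exact ⟨hv.1, Or.inr hv.2⟩
      have h5 := (Finset.card_le_card h3).trans (Finset.card_union_le _ _)
      have h6 := Finset.card_le_card h4
      rw [Finset.card_insert_of_notMem (by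
        rw [Finset.mem_filter]
        exact fun h => G.loopless.irrefl _ h.2)] at h6
      omega
    have hsum : ∑ x ∈ A, M ≤ W1.card := by
      refine (Finset.sum_le_sum hbig).trans ?_
      rw [← Finset.card_biUnion (fun x hx y hy hxy => hpd x hx y hy hxy)]
      refine Finset.card_le_card ?_
      intro v hv
      obtain ⟨x, _, hx⟩ := Finset.mem_biUnion.1 hv
      exact (Finset.mem_filter.1 hx).1
    rw [Finset.sum_const, smul_eq_mul, hAM, hc1, hjM] at hsum
    have : M * (M - 1) < M * M := Nat.mul_lt_mul_of_pos_left (by omega) (by omega)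
    omega


theorem sdiff_card (G : SimpleGraph V) [DecidableEq V] (W J : Finset V) :
    (W \ nbc G W J).card + (nbc G W J).card = W.card :=
  Finset.card_sdiff_add_card_eq_card (nbc_subset _ _ _)

theorem Part.union {G : SimpleGraph V} [DecidableEq V] {W W1 W2 : Finset V} {M a b : ℕ}
    (hM : 1 ≤ M) (h1 : Part G W1 M a) (h2 : Part G W2 M b) (hW1 : W1 ⊆ W) (hW2 : W2 ⊆ W)
    (hd : Disjoint W1 W2) : Part G W M (a + b) := by
  classical
  obtain ⟨F1, hc1, hF1, hd1⟩ := h1
  obtain ⟨F2, hc2, hF2, hd2⟩ := h2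
  have hdF : Disjoint F1 F2 := by
    rw [Finset.disjoint_left]
    intro Q hQ1 hQ2
    obtain ⟨v, hv⟩ := Finset.card_pos.1 (show 0 < Q.card by rw [(hF1 Q hQ1).2.2]; omega)
    exact Finset.disjoint_left.1 hd ((hF1 Q hQ1).1 hv) ((hF2 Q hQ2).1 hv)
  refine ⟨F1 ∪ F2, ?_, ?_, ?_⟩
  · rw [Finset.card_union_of_disjoint hdF, hc1, hc2]
  · intro Q hQ
    rcases Finset.mem_union.1 hQ with h | h
    · exact ⟨(hF1 Q h).1.trans hW1, (hF1 Q h).2⟩
    · exact ⟨(hF2 Q h).1.trans hW2, (hF2 Q h).2⟩
  · intro Q hQ Q' hQ' hne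
    rcases Finset.mem_union.1 hQ with h | h <;> rcases Finset.mem_union.1 hQ' with h' | h'
    · exact hd1 Q h Q' h' hne
    · exact Finset.disjoint_of_subset_left (hF1 Q h).1
        (Finset.disjoint_of_subset_right (hF2 Q' h').1 hd)
    · exact Finset.disjoint_of_subset_left (hF2 Q h).1
        (Finset.disjoint_of_subset_right (hF1 Q' h').1 hd.symm)
    · exact hd2 Q h Q' h' hne

/-- structure of the extremal graphs -/
theorem structure_thm (M : ℕ) (hM : 4 ≤ M) (G : SimpleGraph V) (hno : ¬ HasC G (M + 1)) :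
    ∀ k : ℕ, k ≤ M → ∀ W : Finset V, W.card = M * k → AlLe G W k → Part G W M k := by
  classical
  intro k
  induction k using Nat.strong_induction_on with
  | _ k ih =>
    intro hk W hW hal
    rcases Nat.eq_zero_or_pos k with h0 | h0
    · subst h0
      exact ⟨∅, rfl, by simp, by simp⟩
    rcases Nat.lt_or_ge 1 k with h1 | h1
    swap
    · -- one clique
      have hk1 : k = 1 := by omega
      subst hk1
      refine ⟨{W}, by simp, ?_, by simp⟩
      intro Q hQ
      rw [Finset.mem_singleton.1 hQ]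
      refine ⟨subset_rfl, ?_, by omega⟩
      intro u hu v hv huv
      by_contra hadj
      have := hal {u, v} (by
        intro w hw
        rcases Finset.mem_insert.1 hw with rfl | hw
        · exact hu
        · rw [Finset.mem_singleton.1 hw]; exact hv) (by
        intro a ha b hb hab
        simp only [Finset.mem_insert, Finset.mem_singleton] at ha hb
        rcases ha with rfl | rfl <;> rcases hb with rfl | rfl
        · exact G.loopless.irrefl _ hab
        · exact hadj hab
        · exact hadj hab.symm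
        · exact G.loopless.irrefl _ hab)
      rw [Finset.card_pair huv] at this
      omega
    -- weak expansion
    have hweak : ∀ J ⊆ W, Ind G J → J.Nonempty → M * J.card ≤ (nbc G W J).card := by
      intro J hJ hJi hJne
      by_contra hcon
      push Not at hcon
      have hJk := hal J hJ hJi
      have hc := sdiff_card G W J
      have hmul : M * k = M * (k - J.card) + M * J.card := by
        rw [← Nat.mul_add]
        congr 1
        omega
      exact hno (upper_all G (W \ nbc G W J) M (k - J.card) (by omega) (by omega)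
        (alLe_sdiff G W J k hal hJ hJi) (by omega))
    -- a tight set splits off cliques
    have hsplit : ∀ J ⊆ W, Ind G J → J.Nonempty → J.card < k →
        (nbc G W J).card ≤ M * J.card → (J.card = 1 ∨ ∀ v ∈ W, M ≤ dg G W v) →
        Part G W M k := by
      intro J hJ hJi hJne hJk hJc hdeg
      have hw := hweak J hJ hJi hJne
      have hJ1 : 1 ≤ J.card := Finset.card_pos.2 hJne
      have hc := sdiff_card G W J
      have hmul : M * k = M * (k - J.card) + M * J.card := by
        rw [← Nat.mul_add]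
        congr 1
        omega
      have hP2 := ih (k - J.card) (by omega) (by omega) (W \ nbc G W J) (by omega)
        (alLe_sdiff G W J k hal hJ hJi)
      have hal1 := tight_alLe G W (nbc G W J) (W \ nbc G W J) M k J.card hM hk hJ1 hJk hno hal
        (nbc_subset _ _ _) Finset.sdiff_subset Finset.disjoint_sdiff
        (fun v hv => by
          by_cases h : v ∈ nbc G W J
          · exact Or.inl h
          · exact Or.inr (Finset.mem_sdiff.2 ⟨hv, h⟩)) (by omega) (by omega) hP2 hdeg
      have hP1 := ih J.card hJk (by omega) (nbc G W J) (by omega) hal1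
      have := Part.union (by omega) hP1 hP2 (nbc_subset G W J) Finset.sdiff_subset
        Finset.disjoint_sdiff
      rwa [show J.card + (k - J.card) = k by omega] at this
    by_cases hs : ∃ v ∈ W, dg G W v < M
    · obtain ⟨v, hv, hvd⟩ := hs
      refine hsplit {v} (by simpa using hv) ?_ (by simp) (by simpa using h1) ?_ (Or.inl (by simp))
      · intro a ha b hb
        simp only [Finset.mem_singleton] at ha hb
        rw [ha, hb]
        exact G.loopless.irrefl _
      · have h2 : nbc G W {v} ⊆ insert v (W.filter (G.Adj v)) := by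
          intro w hw
          rw [mem_nbc] at hw
          rcases hw.2 with h3 | ⟨j, hj, h3⟩
          · rw [Finset.mem_singleton.1 h3]
            exact Finset.mem_insert_self _ _
          · rw [Finset.mem_singleton.1 hj] at h3
            exact Finset.mem_insert_of_mem (Finset.mem_filter.2 ⟨hw.1, h3⟩)
        have h3 := (Finset.card_le_card h2).trans (Finset.card_insert_le _ _)
        rw [dg_eq_filter] at hvd
        rw [Finset.card_singleton]
        omega
    push Not at hs
    by_cases ht : ∃ J ⊆ W, Ind G J ∧ J.Nonempty ∧ J.card < k ∧ (nbc G W J).card ≤ M * J.card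
    · obtain ⟨J, hJ, hJi, hJne, hJk, hJc⟩ := ht
      exact hsplit J hJ hJi hJne hJk hJc (Or.inr hs)
    push Not at ht
    exact (caseB G W M k hM h1 hk hno hs
      (fun J hJ hJi hJne hJk => by have := ht J hJ hJi hJne hJk; omega) hweak hal hW).elim

end Vale.Agent.P048.H448
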